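import Vale.Agent.P262.H752.StarF
import Vale.Agent.P262.H713.CF1

/-!
# P262, milestone 2: STAR-F on the cut-off field of helper713 (`FT E ι`), real valued

`t : FT E ι` is the field tree, `s : KTree E` the stopping tree of the same shape (stopped sets =
good labels).
-/

set_option linter.all false

open MeasureTheory ProbabilityTheory Set
open scoped ENNReal RealInnerProductSpace

namespace Vale.Agent.P262.H752

open Vale.Agent.P262.H395 Vale.Agent.P262.H59
open Vale.Agent.P262.H395.KTree (Cyl Hea HK)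
open Vale.Agent.P262.H493 (star)
open Vale.Agent.P262.H654 (phi fr Bd InvR)
open Vale.Agent.P262.H847 (UI)

variable {E : Type*} [NormedAddCommGroup E] [InnerProductSpace ℝ E] {ι : Type*}

/-- the stopping tree has the shape of the field tree -/
def Match : H713.FT E ι → KTree E → Prop
  | H713.FT.leaf _, KTree.leaf => True
  | H713.FT.node W _ Z cls T, KTree.node W' _ Z' cls' sub =>
      W' = W ∧ Z' = Z ∧ cls' = cls ∧ ∀ n, Match (T n) (sub n)
  | H713.FT.leaf _, KTree.node _ _ _ _ _ => False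
  | H713.FT.node _ _ _ _ _, KTree.leaf => False

/-- the cut-off function of a node as an extended function -/
noncomputable def cut (c : E → ℝ) (x : E) (s : ℝ≥0∞) : ℝ≥0∞ :=
  ENNReal.ofReal (phi (min (c x) (1 / 16)) (min s 1).toReal)

/-- the tree with good labels and cut-off functions -/
noncomputable def zip : H713.FT E ι → KTree E → FT E
  | H713.FT.leaf _, _ => FT.leaf
  | H713.FT.node _ _ _ _ _, KTree.leaf => FT.leaf
  | H713.FT.node W c Z cls T, KTree.node _ D _ _ sub =>
      FT.node W D Z (cut c) cls fun n => zip (T n) (sub n)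

lemma zip_toK : ∀ {t : H713.FT E ι} {s : KTree E} (_ : Match t s), (zip t s).toK = s
  | H713.FT.leaf _, KTree.leaf, _ => rfl
  | H713.FT.node W c Z cls T, KTree.node W' D Z' cls' sub, h => by
    obtain ⟨h1, h2, h3, h4⟩ := h
    subst h1; subst h2; subst h3
    have e : (fun n => (zip (T n) (sub n)).toK) = sub := by
      funext n
      exact zip_toK (h4 n)
    show KTree.node _ _ _ _ (fun n => (zip (T n) (sub n)).toK) = _
    rw [e]
  | H713.FT.leaf _, KTree.node _ _ _ _ _, h => h.elim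
  | H713.FT.node _ _ _ _ _, KTree.leaf, h => h.elim

variable [FiniteDimensional ℝ E] [MeasurableSpace E] [BorelSpace E]

/-- the leaves lie at the lines in direction `v`, all labels are orthogonal to `v` -/
def KEnds (v : E) : Submodule ℝ E → KTree E → Prop
  | W0, KTree.leaf => W0 = Hp v
  | _, KTree.node W _ _ _ sub => W ≤ Hp v ∧ ∀ n, KEnds v W (sub n)

/-- the rim condition at the bad leaf lines -/
def KRim (K : Set E) (v : E) (R p Lam : ℝ) : KTree E → Prop
  | KTree.leaf => True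
  | KTree.node W D Z _ sub => (W = Hp v → ∀ x, x ∉ Z → x ∉ D → OnLine K v R p Lam x) ∧
      ∀ n, KRim K v R p Lam (sub n)

/-- conditions along the path of a point: a good label is healthy for the star body, a bad label is
of class `0` and sees both fields with mean at least `1 / 8` -/
def RCnd (K : Set E) (v : E) (g g' : ι → E → ℝ) : H713.FT E ι → KTree E → E → Prop
  | H713.FT.leaf _, _, _ => True
  | H713.FT.node _ _ _ _ _, KTree.leaf, _ => False
  | H713.FT.node W _ Z cls T, KTree.node _ D _ _ sub, x => x ∉ Z →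
      (x ∈ D → Hea K v (4 / 5) (sub 0).frz W x ∧ Hea K v (2 / 3) (sub (cls x)).frz W x) ∧
      (x ∉ D → cls x = 0 ∧ 1 / 8 ≤ H713.FT.val W cls T g x ∧ 1 / 8 ≤ H713.FT.val W cls T g' x) ∧
      RCnd K v g g' (T (cls x)) (sub (cls x)) x

variable {K K' : Set E} {v : E} {R p Lam c0 : ℝ} {g g' : ι → E → ℝ} {W0 W : Submodule ℝ E}

lemma zip_ends : ∀ {t : H713.FT E ι} {s : KTree E} {W0 : Submodule ℝ E} (_ : Match t s)
    (_ : KEnds v W0 s), (zip t s).Ends v W0
  | H713.FT.leaf _, KTree.leaf, _, _, h => h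
  | H713.FT.node W c Z cls T, KTree.node W' D Z' cls' sub, W0, h, h' => by
    obtain ⟨h1, h2, h3, h4⟩ := h
    subst h1
    exact ⟨h'.1, fun n => zip_ends (h4 n) (h'.2 n)⟩
  | H713.FT.leaf _, KTree.node _ _ _ _ _, _, h, _ => h.elim
  | H713.FT.node _ _ _ _ _, KTree.leaf, _, h, _ => h.elim

lemma zip_rim : ∀ {t : H713.FT E ι} {s : KTree E} (_ : Match t s)
    (_ : KRim K v R p Lam s), (zip t s).Rim K v R p Lam
  | H713.FT.leaf _, KTree.leaf, _, h => trivial
  | H713.FT.node W c Z cls T, KTree.node W' D Z' cls' sub, h, h' => by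
    obtain ⟨h1, h2, h3, h4⟩ := h
    subst h1; subst h2
    exact ⟨h'.1, fun n => zip_rim (h4 n) (h'.2 n)⟩
  | H713.FT.leaf _, KTree.node _ _ _ _ _, h, _ => h.elim
  | H713.FT.node _ _ _ _ _, KTree.leaf, h, _ => h.elim

lemma cut_measurable {c : E → ℝ} (hc : Measurable c) :
    Measurable fun q : E × ℝ≥0∞ => cut c q.1 q.2 := by
  unfold cut
  refine Measurable.ennreal_ofReal (H654.measurable_phi ?_ ?_)
  · exact (hc.comp measurable_fst).min measurable_const
  · exact (measurable_snd.min measurable_const).ennreal_toReal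

lemma cut_mono {c : E → ℝ} (hc : ∀ x, 0 ≤ c x) (x : E) : Monotone (cut c x) := by
  intro s s' h
  unfold cut
  apply ENNReal.ofReal_le_ofReal
  refine H654.phi_mono (le_min (hc x) (by norm_num)) (min_le_right _ _) ENNReal.toReal_nonneg ?_
  refine ENNReal.toReal_mono ?_ (min_le_min_right 1 h)
  exact ne_top_of_le_ne_top ENNReal.one_ne_top (min_le_right _ _)

lemma cut_eq {c : E → ℝ} {x : E} (hcx : c x ≤ 1 / 16) {a : ℝ} (ha : 0 ≤ a) (ha1 : a ≤ 1) :
    cut c x (ENNReal.ofReal a) = ENNReal.ofReal (phi (c x) a) := by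
  unfold cut
  rw [min_eq_left hcx, min_eq_left, ENNReal.toReal_ofReal ha]
  rw [← ENNReal.ofReal_one]
  exact ENNReal.ofReal_le_ofReal ha1

lemma zip_OK (hc : c0 ≤ 1 / 16) : ∀ {t : H713.FT E ι} {s : KTree E} {W0 : Submodule ℝ E}
    (_ : Match t s) (_ : H713.FT.Good c0 t) (_ : s.Valid W0), (zip t s).OK W0
  | H713.FT.leaf _, KTree.leaf, _, _, _, _ => trivial
  | H713.FT.node W c Z cls T, KTree.node W' D Z' cls' sub, W0, h, hG, hv => by
    obtain ⟨h1, h2, h3, h4⟩ := h
    subst h1; subst h2; subst h3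
    obtain ⟨hp, hab, hk⟩ := hG
    obtain ⟨g1, hD, hcD, hcZ, hZ, hZc, hcls, hci, hsub⟩ := hv
    refine ⟨g1, hD, hcD, hcZ, hZ, hZc, hcls, hci, cut_measurable hp.meas, ?_, cut_mono hp.nonneg,
      fun n => zip_OK hc (h4 n) (hk n) (hsub n)⟩
    intro x w hw
    unfold cut
    rw [hp.inv x w hw]
  | H713.FT.leaf _, KTree.node _ _ _ _ _, _, h, _, _ => h.elim
  | H713.FT.node _ _ _ _ _, KTree.leaf, _, h, _, _ => h.elim

lemma fib_ofReal {f : E → ℝ} (hf : UI f) (W : Submodule ℝ E) (x : E) :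
    fib W (fun y => ENNReal.ofReal (f y)) x = ENNReal.ofReal (fr W f x) :=
  (H654.ofReal_fr (Bd.of_UI hf) hf.nonneg x).symm

/-- the mean of the children in the extended form -/
lemma cut_val {W : Submodule ℝ E} {c : E → ℝ} {Z : Set E} {cls : E → ℕ} {T : ℕ → H713.FT E ι}
    (hc : c0 ≤ 1 / 16) (hp : H713.NodeOK c0 W c Z cls) (hk : ∀ k, H713.FT.Good c0 (T k))
    (hg : ∀ i, UI (g i)) {x : E} (hx : x ∉ Z) {f : E → ℝ≥0∞}
    (hf : f = fun y => ENNReal.ofReal (H713.FT.fl (T (cls x)) g y)) :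
    cut c x (fib W f x) = ENNReal.ofReal (phi (c x) (H713.FT.val W cls T g x)) := by
  have hu := H713.FT.fl_UI (hk (cls x)) hc hg
  rw [hf, fib_ofReal hu]
  have e : H713.FT.val W cls T g x = fr W (H713.FT.fl (T (cls x)) g) x :=
    H713.fr_sel hp.icls (fun k => H713.FT.fl (T k) g) x
  rw [e]
  have hU := H654.UI.fr hu W
  exact cut_eq ((hp.le x hx).trans hc) (hU.nonneg x) (hU.le_one x)

lemma fld_zip (hc : c0 ≤ 1 / 16) {gr : E → ℝ} (hg : UI gr) :
    ∀ {t : H713.FT E ι} {s : KTree E} (_ : Match t s) (_ : H713.FT.Good c0 t) (x : E),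
    FT.fld (zip t s) (fun y => ENNReal.ofReal (gr y)) x
      = ENNReal.ofReal (H713.FT.fl t (fun _ => gr) x)
  | H713.FT.leaf _, KTree.leaf, _, _, x => rfl
  | H713.FT.node W c Z cls T, KTree.node W' D Z' cls' sub, h, hG, x => by
    obtain ⟨h1, h2, h3, h4⟩ := h
    subst h1; subst h2; subst h3
    obtain ⟨hp, hab, hk⟩ := hG
    have ih := fld_zip hc hg (h4 (cls' x)) (hk (cls' x))
    rw [H713.FT.fl_node]
    simp only [zip, FT.fld]
    by_cases hx : x ∈ Z'
    · rw [if_pos hx, if_pos hx, ENNReal.ofReal_one]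
    · rw [if_neg hx, if_neg hx, ih, cut_val hc hp hk (fun _ => hg) hx (funext ih),
        ENNReal.ofReal_mul]
      exact H654.phi_nonneg (hp.nonneg x) ((hp.le x hx).trans hc)
        ((H713.FT.val_UI hp hk hc (fun _ => hg)).nonneg x)
  | H713.FT.leaf _, KTree.node _ _ _ _ _, h, _, _ => h.elim
  | H713.FT.node _ _ _ _ _, KTree.leaf, h, _, _ => h.elim

lemma wt_zip (hc : c0 ≤ 1 / 16) {gr : E → ℝ} (hg : UI gr) :
    ∀ {t : H713.FT E ι} {s : KTree E} (_ : Match t s) (_ : H713.FT.Good c0 t) (x : E),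
    FT.wt (zip t s) (fun y => ENNReal.ofReal (gr y)) x
      = ENNReal.ofReal (H713.FT.wt t (fun _ => gr) x)
  | H713.FT.leaf _, KTree.leaf, _, _, x => by simp [zip, FT.wt]
  | H713.FT.node W c Z cls T, KTree.node W' D Z' cls' sub, h, hG, x => by
    obtain ⟨h1, h2, h3, h4⟩ := h
    subst h1; subst h2; subst h3
    obtain ⟨hp, hab, hk⟩ := hG
    have ih := wt_zip hc hg (h4 (cls' x)) (hk (cls' x))
    have ih' := fld_zip hc hg (h4 (cls' x)) (hk (cls' x))
    rw [H713.FT.wt_node]
    simp only [zip, FT.wt]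
    by_cases hx : x ∈ Z'
    · rw [if_pos hx, if_pos hx, ENNReal.ofReal_zero]
    · rw [if_neg hx, if_neg hx, ih, cut_val hc hp hk (fun _ => hg) hx (funext ih'),
        ENNReal.ofReal_mul]
      exact H654.phi_nonneg (hp.nonneg x) ((hp.le x hx).trans hc)
        ((H713.FT.val_UI hp hk hc (fun _ => hg)).nonneg x)
  | H713.FT.leaf _, KTree.node _ _ _ _ _, h, _, _ => h.elim
  | H713.FT.node _ _ _ _ _, KTree.leaf, h, _, _ => h.elim

lemma cnd_zip (hc : c0 ≤ 1 / 16) {gr gr' : E → ℝ} (hg : UI gr) (hg' : UI gr') :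
    ∀ {t : H713.FT E ι} {s : KTree E} (_ : Match t s) (_ : H713.FT.Good c0 t) {x : E}
    (_ : RCnd K v (fun _ => gr) (fun _ => gr') t s x),
    FT.Cnd K v (fun y => ENNReal.ofReal (gr y)) (fun y => ENNReal.ofReal (gr' y)) (zip t s) x
  | H713.FT.leaf _, KTree.leaf, _, _, x, _ => trivial
  | H713.FT.node W c Z cls T, KTree.node W' D Z' cls' sub, h, hG, x, hx => by
    obtain ⟨h1, h2, h3, h4⟩ := h
    subst h1; subst h2; subst h3
    obtain ⟨hp, hab, hk⟩ := hG
    intro hZ
    obtain ⟨a, b, d⟩ := hx hZ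
    refine ⟨fun hD => ?_, fun hD => ?_, cnd_zip hc hg hg' (h4 _) (hk _) d⟩
    · rw [zip_toK (h4 0), zip_toK (h4 (cls' x))]
      exact a hD
    · obtain ⟨b1, b2, b3⟩ := b hD
      refine ⟨b1, ?_, ?_⟩
      · rw [cut_val hc hp hk (fun _ => hg) hZ (funext (fld_zip hc hg (h4 _) (hk _))),
          H654.phi_self ((hp.le x hZ).trans hc) b2, ENNReal.ofReal_one]
      · rw [cut_val hc hp hk (fun _ => hg') hZ (funext (fld_zip hc hg' (h4 _) (hk _))),
          H654.phi_self ((hp.le x hZ).trans hc) b3, ENNReal.ofReal_one]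
  | H713.FT.leaf _, KTree.node _ _ _ _ _, h, _, _, _ => h.elim
  | H713.FT.node _ _ _ _ _, KTree.leaf, h, _, _, _ => h.elim

/-- real valued indicator of the complement: the payoff -/
noncomputable def ci (K : Set E) : E → ℝ := Kᶜ.indicator fun _ => (1 : ℝ)

omit [FiniteDimensional ℝ E] in
lemma ci_UI (hK : MeasurableSet K) : UI (ci K) := by
  refine ⟨measurable_const.indicator hK.compl, fun x => ?_, fun x => ?_⟩
  · exact indicator_nonneg (fun _ _ => zero_le_one) x
  · unfold ci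
    by_cases h : x ∈ Kᶜ
    · rw [indicator_of_mem h]
    · rw [indicator_of_notMem h]; exact zero_le_one

omit [NormedAddCommGroup E] [InnerProductSpace ℝ E] [FiniteDimensional ℝ E] [MeasurableSpace E]
  [BorelSpace E] in
lemma ofReal_ind (S : Set E) (x : E) :
    ENNReal.ofReal (S.indicator (fun _ => (1 : ℝ)) x) = S.indicator 1 x := by
  by_cases h : x ∈ S
  · rw [indicator_of_mem h, indicator_of_mem h]; simp
  · rw [indicator_of_notMem h, indicator_of_notMem h]; simp

omit [FiniteDimensional ℝ E] [MeasurableSpace E] [BorelSpace E] in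
lemma ofReal_ci (K : Set E) : (fun x => ENNReal.ofReal (ci K x)) = Kᶜ.indicator 1 :=
  funext fun x => ofReal_ind Kᶜ x

lemma ed_ofReal {a b : ℝ} (ha : 0 ≤ a) (hb : 0 ≤ b) :
    ed (ENNReal.ofReal a) (ENNReal.ofReal b) = ENNReal.ofReal |a - b| := by
  unfold ed
  rw [← ENNReal.ofReal_sub _ hb, ← ENNReal.ofReal_sub _ ha]
  rcases le_total a b with h | h
  · rw [ENNReal.ofReal_of_nonpos (by linarith : a - b ≤ 0), zero_add,
      abs_of_nonpos (by linarith : a - b ≤ 0)]
    congr 1; ring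
  · rw [ENNReal.ofReal_of_nonpos (by linarith : b - a ≤ 0), add_zero,
      abs_of_nonneg (by linarith : 0 ≤ a - b)]

/-- gain and loss, real valued -/
noncomputable def chR (K K' : Set E) (x : E) : ℝ :=
  (K' \ K).indicator (fun _ => (1 : ℝ)) x + (K \ K').indicator (fun _ => (1 : ℝ)) x

omit [FiniteDimensional ℝ E] [MeasurableSpace E] [BorelSpace E] in
lemma ind0 (S : Set E) (x : E) : 0 ≤ S.indicator (fun _ => (1 : ℝ)) x :=
  indicator_nonneg (fun _ _ => zero_le_one) x

omit [FiniteDimensional ℝ E] [MeasurableSpace E] [BorelSpace E] in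
lemma chR_nonneg (K K' : Set E) (x : E) : 0 ≤ chR K K' x := add_nonneg (ind0 _ _) (ind0 _ _)

omit [FiniteDimensional ℝ E] [MeasurableSpace E] [BorelSpace E] in
lemma ofReal_chR (x : E) : ENNReal.ofReal (chR K K' x) = FT.chg K K' x := by
  unfold chR FT.chg
  rw [ENNReal.ofReal_add (ind0 _ _) (ind0 _ _), ofReal_ind, ofReal_ind]

lemma chR_UI (hK : MeasurableSet K) (hK' : MeasurableSet K') : UI (chR K K') := by
  refine ⟨?_, chR_nonneg K K', fun x => ?_⟩
  · exact (measurable_const.indicator (hK'.diff hK)).add (measurable_const.indicator (hK.diff hK'))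
  · unfold chR
    by_cases h : x ∈ K <;> by_cases h' : x ∈ K' <;> simp [h, h']

lemma UI.mul {f h : E → ℝ} (hf : UI f) (hh : UI h) : UI fun y => f y * h y :=
  ⟨hf.meas.mul hh.meas, fun y => mul_nonneg (hf.nonneg y) (hh.nonneg y),
    fun y => mul_le_one₀ (hf.le_one y) (hh.nonneg y) (hh.le_one y)⟩

lemma UI.dist {f h : E → ℝ} (hf : UI f) (hh : UI h) : UI fun y => |f y - h y| := by
  refine ⟨(hf.meas.sub hh.meas).abs, fun y => abs_nonneg _, fun y => ?_⟩
  have h1 := hf.nonneg y
  have h2 := hf.le_one y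
  have h3 := hh.nonneg y
  have h4 := hh.le_one y
  rw [abs_le]
  constructor <;> linarith

/-- **STAR-F on the field `fl t`, at a healthy root label.** -/
theorem star_fr (hv : v ≠ 0) (hv' : ‖v‖ ≤ 1 / 160000) (hK : IsClosed K) (hKc : Convex ℝ K)
    (hKR : K ⊆ Metric.closedBall 0 R) (hp0 : 0 ≤ p) (hp : p ≤ 1 / 4) (hL : 1 ≤ Lam)
    (hK' : K' = star K v ∩ Metric.closedBall 0 R) (hc : c0 ≤ 1 / 16) {t : H713.FT E ι}
    {s : KTree E} (hm : Match t s) (hG : H713.FT.Good c0 t) (hs : s.Valid W) (he : KEnds v W s)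
    (hr : KRim K v R p Lam s) (hW : W ≤ Hp v) (x : E)
    (hcnd : ∀ y, W.starProjection y = W.starProjection x →
      RCnd K v (fun _ => ci K) (fun _ => ci K') t s y)
    (hh : Hea K v (2 / 3) s.frz W x) :
    fr W (fun y => H713.FT.wt t (fun _ => ci K) y * chR K K' y) x
        + fr W (fun y => |H713.FT.fl t (fun _ => ci K) y - H713.FT.fl t (fun _ => ci K') y|) x
      ≤ 3 * (fr W (H713.FT.fl t fun _ => ci K) x - fr W (H713.FT.fl t fun _ => ci K') x) := by
  have hSm := measurableSet_star hK hKR hv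
  have hBm : MeasurableSet (Metric.closedBall (0 : E) R) := Metric.isClosed_closedBall.measurableSet
  have hKm := hK.measurableSet
  have hKm' : MeasurableSet K' := by rw [hK']; exact hSm.inter hBm
  have u := H713.FT.fl_UI hG hc (g := fun _ => ci K) (fun _ => ci_UI hKm)
  have u' := H713.FT.fl_UI hG hc (g := fun _ => ci K') (fun _ => ci_UI hKm')
  have w := H713.FT.wt_UI hG hc (g := fun _ => ci K) (fun _ => ci_UI hKm)
  have cu : UI (chR K K') := chR_UI hKm hKm'
  have key := FT.star_f hv hv' hK hKc hKR hp0 hp hL hK' (T := zip t s) (W := W)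
    (zip_OK hc hm hG hs) (zip_ends hm he) (zip_rim hm hr) hW x (fun y hy => by
      rw [← ofReal_ci, ← ofReal_ci]
      exact cnd_zip hc (ci_UI hKm) (ci_UI hKm') hm hG (hcnd y hy)) (by rw [zip_toK hm]; exact hh)
  have e1 : FT.fld (zip t s) (Kᶜ.indicator 1)
      = fun y => ENNReal.ofReal (H713.FT.fl t (fun _ => ci K) y) := by
    rw [← ofReal_ci]; exact funext (fld_zip hc (ci_UI hKm) hm hG)
  have e2 : FT.fld (zip t s) (K'ᶜ.indicator 1)
      = fun y => ENNReal.ofReal (H713.FT.fl t (fun _ => ci K') y) := by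
    rw [← ofReal_ci]; exact funext (fld_zip hc (ci_UI hKm') hm hG)
  have e3 : FT.wt (zip t s) (Kᶜ.indicator 1)
      = fun y => ENNReal.ofReal (H713.FT.wt t (fun _ => ci K) y) := by
    rw [← ofReal_ci]; exact funext (wt_zip hc (ci_UI hKm) hm hG)
  rw [e1, e2, e3] at key
  have e4 : (fun y => ENNReal.ofReal (H713.FT.wt t (fun _ => ci K) y) * FT.chg K K' y)
      = fun y => ENNReal.ofReal (H713.FT.wt t (fun _ => ci K) y * chR K K' y) := by
    funext y
    rw [ENNReal.ofReal_mul (w.nonneg y), ofReal_chR]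
  have e5 : (fun y => ed (ENNReal.ofReal (H713.FT.fl t (fun _ => ci K) y))
        (ENNReal.ofReal (H713.FT.fl t (fun _ => ci K') y)))
      = fun y => ENNReal.ofReal
        |H713.FT.fl t (fun _ => ci K) y - H713.FT.fl t (fun _ => ci K') y| := by
    funext y
    exact ed_ofReal (u.nonneg y) (u'.nonneg y)
  simp only [e4, e5] at key
  rw [fib_ofReal (UI.mul w cu), fib_ofReal (UI.dist u u'), fib_ofReal u', fib_ofReal u,
    show (3 : ℝ≥0∞) = ENNReal.ofReal 3 by norm_num, ← ENNReal.ofReal_mul (by norm_num),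
    ← ENNReal.ofReal_mul (by norm_num), ← ENNReal.ofReal_add, ← ENNReal.ofReal_add,
    ENNReal.ofReal_le_ofReal_iff] at key
  · linarith
  · exact mul_nonneg (by norm_num) ((H654.UI.fr u W).nonneg x)
  · exact add_nonneg ((H654.UI.fr (UI.mul w cu) W).nonneg x) ((H654.UI.fr (UI.dist u u') W).nonneg x)
  · exact mul_nonneg (by norm_num) ((H654.UI.fr u' W).nonneg x)
  · exact (H654.UI.fr (UI.mul w cu) W).nonneg x
  · exact (H654.UI.fr (UI.dist u u') W).nonneg x

/-- **STAR-F on the field `fl t`, integrated with a static weight over the labels `W` in the fibre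
of a label `W0`** (chains of bad labels). -/
theorem star_fr_weighted (hv : v ≠ 0) (hv' : ‖v‖ ≤ 1 / 160000) (hK : IsClosed K)
    (hKc : Convex ℝ K)
    (hKR : K ⊆ Metric.closedBall 0 R) (hp0 : 0 ≤ p) (hp : p ≤ 1 / 4) (hL : 1 ≤ Lam)
    (hK' : K' = star K v ∩ Metric.closedBall 0 R) (hc : c0 ≤ 1 / 16) {t : H713.FT E ι}
    {s : KTree E} (hm : Match t s) (hG : H713.FT.Good c0 t) (hs : s.Valid W) (he : KEnds v W s)
    (hr : KRim K v R p Lam s) (hW : W0 ≤ W) {ω : E → ℝ≥0∞} (hω : Inv W ω) (hωm : Measurable ω)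
    (x0 : E)
    (hcnd : ∀ y, W0.starProjection y = W0.starProjection x0 → ω y ≠ 0 →
      RCnd K v (fun _ => ci K) (fun _ => ci K') t s y)
    (hfin : fib W0 (fun y => (ω y * s.reg.indicator 1 y) * (K' \ K).indicator 1 y) x0 ≠ ⊤)
    (hU : 8 * fib W0 (fun y => (ω y * s.reg.indicator 1 y) * (K \ K').indicator 1 y) x0
      ≤ fib W0 (fun y => (ω y * s.reg.indicator 1 y) * (K' \ K).indicator 1 y) x0) :
    fib W0 (fun y => ω y * (ENNReal.ofReal (H713.FT.wt t (fun _ => ci K) y * chR K K' y)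
        + ENNReal.ofReal |H713.FT.fl t (fun _ => ci K) y - H713.FT.fl t (fun _ => ci K') y|
        + 3 * ENNReal.ofReal (H713.FT.fl t (fun _ => ci K') y))) x0
      ≤ 3 * fib W0 (fun y => ω y * ENNReal.ofReal (H713.FT.fl t (fun _ => ci K) y)) x0 := by
  have hSm := measurableSet_star hK hKR hv
  have hBm : MeasurableSet (Metric.closedBall (0 : E) R) := Metric.isClosed_closedBall.measurableSet
  have hKm := hK.measurableSet
  have hKm' : MeasurableSet K' := by rw [hK']; exact hSm.inter hBm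
  have u := H713.FT.fl_UI hG hc (g := fun _ => ci K) (fun _ => ci_UI hKm)
  have u' := H713.FT.fl_UI hG hc (g := fun _ => ci K') (fun _ => ci_UI hKm')
  have w := H713.FT.wt_UI hG hc (g := fun _ => ci K) (fun _ => ci_UI hKm)
  have key := FT.star_f_weighted hv hv' hK hKc hKR hp0 hp hL hK' (T := zip t s) hW
    (zip_OK hc hm hG hs) (zip_ends hm he) (zip_rim hm hr) hω hωm x0 (fun y hy h0 => by
      rw [← ofReal_ci, ← ofReal_ci]
      exact cnd_zip hc (ci_UI hKm) (ci_UI hKm') hm hG (hcnd y hy h0))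
    (by rw [zip_toK hm]; exact hfin) (by rw [zip_toK hm]; exact hU)
  have e1 : FT.fld (zip t s) (Kᶜ.indicator 1)
      = fun y => ENNReal.ofReal (H713.FT.fl t (fun _ => ci K) y) := by
    rw [← ofReal_ci]; exact funext (fld_zip hc (ci_UI hKm) hm hG)
  have e2 : FT.fld (zip t s) (K'ᶜ.indicator 1)
      = fun y => ENNReal.ofReal (H713.FT.fl t (fun _ => ci K') y) := by
    rw [← ofReal_ci]; exact funext (fld_zip hc (ci_UI hKm') hm hG)
  have e3 : FT.wt (zip t s) (Kᶜ.indicator 1)
      = fun y => ENNReal.ofReal (H713.FT.wt t (fun _ => ci K) y) := by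
    rw [← ofReal_ci]; exact funext (wt_zip hc (ci_UI hKm) hm hG)
  rw [e1, e2, e3] at key
  refine le_trans (le_of_eq ?_) key
  congr 1
  funext y
  rw [ENNReal.ofReal_mul (w.nonneg y), ofReal_chR, ed_ofReal (u.nonneg y) (u'.nonneg y)]

end Vale.Agent.P262.H752
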