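import Vale.Agent.P262.H752.StarS1
import Vale.Agent.P262.H59.StarSys
import Vale.Agent.P262.M2.Fld
import Vale.Agent.P262.H395.CS2

/-!
# P262, milestone 2: STAR-F on `M2.Sys`, the interface of the chains of bad labels
-/

set_option linter.all false

open MeasureTheory ProbabilityTheory Set
open scoped ENNReal RealInnerProductSpace
open Vale.Agent.P262.H395 (fib Inv)
open Vale.Agent.P262.H395.KTree (Hea)
open Vale.Agent.P262.H59 (OnLine Hp)
open Vale.Agent.P262.H752 (kc)

namespace Vale.Agent.P262.M2.Sys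

variable {E : Type*} [NormedAddCommGroup E] [InnerProductSpace ℝ E] [FiniteDimensional ℝ E]
  [MeasurableSpace E] [BorelSpace E] (S : Sys E)

/-- the stopping tree of the child `k` of `p`, in the coordinates of `p` -/
noncomputable def kK (D : List ℕ → Set E) (m n : ℕ) (p : List ℕ) (k : ℕ) : H395.KTree E :=
  kc (S.pa m) D (fun p => S.Z p m) (fun p => S.kl p m) n p k

/-- conditions on the good labels `D` of the star move `m` -/
structure StopOK (D : List ℕ → Set E) (m : ℕ) (Lam : ℝ) : Prop where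
  lab : H713.Lab (S.pa m) D (fun p => S.Z p m) (fun p => S.kl p m)
  good : ∀ n (q : List ℕ), n + 1 + q.length = Module.finrank ℝ E → ∀ x, x ∉ S.Z q m → x ∈ D q →
    ∀ k, k = 0 ∨ k = S.kl q m x →
      Hea (S.X q m) (S.wX m q) (4 / 5) (S.kK D m n q k).frz (S.W q m) x
  bad : ∀ q x, x ∉ S.Z q m → x ∉ D q → S.kl q m x = 0
  rim : ∀ q, S.W q m = Hp (S.wX m q) → ∀ x, x ∉ S.Z q m → x ∉ D q →
    OnLine (S.X q m) (S.wX m q) S.R (1 / 8) Lam x

/-- the chain between `a` and `p`: all labels strictly below `a`, down to `p`, are bad and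
unkilled -/
def Chn (D : List ℕ → Set E) (m : ℕ) (a p : List ℕ) : Set E :=
  {y | ∀ r, a <:+ r → r ≠ a → r <:+ p → y ∉ D r ∧ y ∉ S.Z r m}

/-- weight of the chain -/
noncomputable def omC (D : List ℕ → Set E) (m : ℕ) (a p : List ℕ) (y : E) : ℝ≥0∞ :=
  S.As S.th p m y * (S.Chn D m a p).indicator 1 y

/-- **(CHAIN_U)** gain and loss on the chains of bad labels below a good label -/
def ChainU (Lam : ℝ) : Prop := ∀ m < S.mT, S.mv.IsStar m → ∀ D : List ℕ → Set E,
  S.StopOK D m Lam → ∀ (i c' : ℕ) (a p : List ℕ), p = List.replicate i 0 ++ c' :: a →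
  ∀ n, n + 1 + p.length = Module.finrank ℝ E → ¬ S.Leaf p m →
  ∀ x0, x0 ∉ S.Z a m → x0 ∈ D a → S.kl a m x0 = c' →
    8 * fib (S.W a m) (fun y => (S.omC D m a p y * (S.kK D m n p 0).reg.indicator 1 y) *
        (S.X p m \ S.X p (m + 1)).indicator 1 y) x0 ≤
      fib (S.W a m) (fun y => (S.omC D m a p y * (S.kK D m n p 0).reg.indicator 1 y) *
        (S.X p (m + 1) \ S.X p m).indicator 1 y) x0

end Vale.Agent.P262.M2.Sys
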