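import Vale.Agent.P262.H752.StarS6
import Vale.Agent.P262.H395.ChU3
import Vale.Agent.P262.H59.PsiE

/-!
# P262, milestone 2: STAR-F on `M2.Sys`: **(STARF)**
-/

set_option linter.all false

open MeasureTheory ProbabilityTheory Set
open scoped ENNReal RealInnerProductSpace

namespace Vale.Agent.P262.M2.Sys

open Vale.Agent.P262.H395 (fib Inv fib_mul fib_mono lintegral_fib measurable_fib)
open Vale.Agent.P262.H752
open Vale.Agent.P262.H654 (fr InvR Bd)
open Vale.Agent.P262.H847 (UI)

variable {E : Type*} [NormedAddCommGroup E] [InnerProductSpace ℝ E] [FiniteDimensional ℝ E]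
  [MeasurableSpace E] [BorelSpace E] {S : Sys E} {D : List ℕ → Set E} {m : ℕ} {Lam : ℝ}
  {a p : List ℕ}

omit [FiniteDimensional ℝ E] in
lemma int_ind {A : Set E} (hA : MeasurableSet A) (μ : Measure E) (h : E → ℝ≥0∞) :
    ∫⁻ x, A.indicator 1 x * h x ∂μ = ∫⁻ x in A, h x ∂μ := by
  rw [← lintegral_indicator hA]
  refine lintegral_congr fun x => ?_
  by_cases hx : x ∈ A
  · rw [indicator_of_mem hx, indicator_of_mem hx, Pi.one_apply, one_mul]
  · rw [indicator_of_notMem hx, indicator_of_notMem hx, zero_mul]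

/-! ### the chains -/

lemma measurableSet_BR (hD : S.StopOK D m Lam) (hm : S.mv.tm m < S.T) (a p : List ℕ) :
    MeasurableSet (S.BR D m a p) := by
  have e : S.BR D m a p = S.Rg p 0 m ∩ D a ∩ ⋂ r : List ℕ, ⋂ (_ : a <:+ r), ⋂ (_ : r ≠ a),
      ⋂ (_ : r <:+ p), (D r)ᶜ := by
    ext y
    simp only [BR, mem_setOf_eq, mem_iInter, mem_inter_iff, mem_compl_iff, and_assoc]
  rw [e]
  exact ((measurableSet_Rg_c hm).inter (hD.lab.mD a)).inter (MeasurableSet.iInter fun r =>
    MeasurableSet.iInter fun _ => MeasurableSet.iInter fun _ => MeasurableSet.iInter fun _ =>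
      (hD.lab.mD r).compl)

/-- shape of a chain -/
lemma chain_form (hD : S.StopOK D m Lam) {x : E} (hx : x ∈ S.BR D m a p) (hsuf : a <:+ p)
    (hne : a ≠ p) : ∃ i c', p = List.replicate i 0 ++ c' :: a := by
  obtain ⟨h1, h2, h3⟩ := hx
  obtain ⟨u, hu⟩ := hsuf
  rcases List.eq_nil_or_concat u with h | ⟨u', c', h⟩
  · exact absurd (by rw [h] at hu; simpa using hu) hne
  · refine ⟨u'.length, c', ?_⟩
    have hp : p = u' ++ c' :: a := by rw [← hu, h]; simp
    have hz : ∀ d ∈ u', d = 0 := by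
      intro d hd
      obtain ⟨v, w, hvw⟩ := List.append_of_mem hd
      have hr : d :: (w ++ c' :: a) <:+ p := ⟨v, by rw [hp, hvw]; simp⟩
      have hr' : w ++ c' :: a <:+ p := (List.suffix_cons _ _).trans hr
      have h4 := h1.1.1 d _ hr
      have h5 : x ∉ D (w ++ c' :: a) := by
        refine h3 _ ⟨w ++ [c'], by simp⟩ (fun e => ?_) hr'
        have := congrArg List.length e
        simp at this
        omega
      rw [← h4]
      exact hD.bad _ x (not_Z_of_Rg h1 hr') h5
    rw [hp]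
    congr 1
    exact List.eq_replicate_of_mem hz

/-- decomposition of the bad labels -/
lemma bad_eq (hroot : ∀ x, x ∈ D []) (p : List ℕ) :
    S.Rg p 0 m \ D p = ⋃ k ∈ Finset.Icc 1 p.length, S.BR D m (p.drop k) p := by
  classical
  ext x
  simp only [mem_iUnion, Finset.mem_Icc, exists_prop]
  constructor
  · rintro ⟨h1, h2⟩
    have hex : ∃ k, x ∈ D (p.drop k) := ⟨p.length, by rw [List.drop_length]; exact hroot x⟩
    set k := Nat.find hex with hk
    have hk1 : x ∈ D (p.drop k) := Nat.find_spec hex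
    have hk0 : k ≠ 0 := by
      intro e
      rw [e, List.drop_zero] at hk1
      exact h2 hk1
    have hkl : k ≤ p.length := Nat.find_min' hex (by rw [List.drop_length]; exact hroot x)
    refine ⟨k, ⟨Nat.one_le_iff_ne_zero.mpr hk0, hkl⟩, h1, hk1, fun r ha hne hr => ?_⟩
    have e : r = p.drop (p.length - r.length) := by
      obtain ⟨u, hu⟩ := hr
      rw [← hu]
      simp
    rw [e]
    refine Nat.find_min hex ?_
    have l1 := ha.length_le
    have l2 := hr.length_le
    rw [List.length_drop] at l1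
    have l3 : r.length ≠ p.length - k := by
      intro e2
      apply hne
      exact (ha.eq_of_length (by rw [List.length_drop, e2])).symm
    omega
  · rintro ⟨k, ⟨hk1, hk2⟩, h1, h2, h3⟩
    refine ⟨h1, h3 p (List.drop_suffix k p) (fun e => ?_) (List.suffix_refl p)⟩
    have := congrArg List.length e
    rw [List.length_drop] at this
    omega

lemma BR_disj (p : List ℕ) :
    ((Finset.Icc 1 p.length : Finset ℕ) : Set ℕ).PairwiseDisjoint
      fun k => S.BR D m (p.drop k) p := by
  have key : ∀ k k', k < k' → k' ≤ p.length → ∀ x, x ∈ S.BR D m (p.drop k) p →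
      x ∈ S.BR D m (p.drop k') p → False := by
    rintro k k' h hk' x ⟨_, h2, _⟩ ⟨_, _, h3'⟩
    refine h3' (p.drop k) ?_ (fun e => ?_) (List.drop_suffix k p) h2
    · have e : p.drop k' = (p.drop k).drop (k' - k) := by
        rw [List.drop_drop]; congr 1; omega
      rw [e]
      exact List.drop_suffix _ _
    · have := congrArg List.length e
      rw [List.length_drop, List.length_drop] at this
      omega
  intro k hk k' hk' hne
  rw [Finset.mem_coe, Finset.mem_Icc] at hk hk'
  show Disjoint _ _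
  rw [Set.disjoint_left]
  intro x hx hx'
  rcases lt_or_gt_of_ne hne with h | h
  · exact key k k' h hk'.2 x hx hx'
  · exact key k' k h hk.2 x hx' hx

/-- **the bad labels of a node** -/
theorem star_bad (hC : S.StarC) (hLam : 1 ≤ Lam) (hU : S.ChainU Lam)
    (hD : S.StarOK D m Lam) (hroot : ∀ x, x ∈ D []) (h : S.mv.IsStar m) (hm : m < S.mT)
    (hl : ¬ S.Leaf p m) (hn : p.length + 1 ≤ Module.finrank ℝ E) :
    ∫⁻ x in S.Rg p 0 m \ D p, S.As S.th p m x * fib (S.W p m) (S.gst p m) x ∂stdGaussian E +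
      3 * ∫⁻ x in S.Rg p 0 m \ D p, S.As S.th p m x * S.F p (m + 1) x ∂stdGaussian E ≤
      3 * ∫⁻ x in S.Rg p 0 m \ D p, S.As S.th p m x * S.F p m x ∂stdGaussian E := by
  have ht := S.tm_lt_X hm
  have hBm : ∀ k ∈ Finset.Icc 1 p.length, MeasurableSet (S.BR D m (p.drop k) p) := fun k _ =>
    measurableSet_BR hD.toStopOK ht _ _
  rw [bad_eq hroot, lintegral_biUnion_finset (BR_disj p) hBm,
    lintegral_biUnion_finset (BR_disj p) hBm, lintegral_biUnion_finset (BR_disj p) hBm,
    Finset.mul_sum, Finset.mul_sum, ← Finset.sum_add_distrib]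
  refine Finset.sum_le_sum fun k hk => ?_
  rw [Finset.mem_Icc] at hk
  rcases (S.BR D m (p.drop k) p).eq_empty_or_nonempty with he | ⟨x, hx⟩
  · rw [he]
    simp
  · have hne : p.drop k ≠ p := by
      intro e
      have := congrArg List.length e
      rw [List.length_drop] at this
      omega
    obtain ⟨i, c', hp⟩ := chain_form hD.toStopOK hx (List.drop_suffix k p) hne
    have key := star_chain hC hLam hU hD h hm hp hl hn
    have hB := measurableSet_BR hD.toStopOK ht (p.drop k) p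
    rw [int_ind hB, int_ind hB, int_ind hB] at key
    exact key

/-- **one node, one class** -/
theorem star_node (hC : S.StarC) (hLam : 1 ≤ Lam) (hU : S.ChainU Lam)
    (hD : S.StarOK D m Lam) (hroot : ∀ x, x ∈ D []) (h : S.mv.IsStar m) (hm : m < S.mT)
    (hl : ¬ S.Leaf p m) (hn : p.length + 1 ≤ Module.finrank ℝ E) (c : ℕ) :
    ∫⁻ x in S.Rg p c m, S.slp p m x (S.F p m x) * S.Gst p m x ∂stdGaussian E +
      18 * ∫⁻ x in S.Rg p c m, S.PsiE p m x (S.F p (m + 1) x) ∂stdGaussian E ≤
      18 * ∫⁻ x in S.Rg p c m, S.PsiE p m x (S.F p m x) ∂stdGaussian E := by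
  have ht := S.tm_lt_X hm
  have hL := S.labOK hm.le
  have hL' := S.labOK (m := m + 1) hm
  have hFt : ∀ x, S.F p m x ≠ ⊤ := fun x => by rw [hL.F_eq]; exact ENNReal.ofReal_ne_top
  have hFt' : ∀ x, S.F p (m + 1) x ≠ ⊤ := fun x => by rw [hL'.F_eq]; exact ENNReal.ofReal_ne_top
  have hR : MeasurableSet (S.Rg p c m) := measurableSet_Rg_c ht
  have hDm := hD.lab.mD p
  have h18 : (18 : ℝ≥0∞) ≠ ⊤ := by norm_num
  have mF : Measurable (S.F p m) := by
    have : S.F p m = fun x => ENNReal.ofReal (S.Fr p m x) := funext fun x => hL.F_eq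
    rw [this]; exact hL.Fr_UI.meas.ennreal_ofReal
  have mF' : Measurable (S.F p (m + 1)) := by
    have : S.F p (m + 1) = fun x => ENNReal.ofReal (S.Fr p (m + 1) x) := funext fun x => hL'.F_eq
    rw [this]; exact hL'.Fr_UI.meas.ennreal_ofReal
  have mG : Measurable (S.Gst p m) := S.Gst_meas hm p
  have mA : Measurable (S.A p m) := S.A_meas p m
  have msl : Measurable fun x => S.slp p m x (S.F p m x) := by
    unfold slp
    exact (mA.div (mA.max (mF.min measurable_const))).pow_const _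
  have mslG : Measurable fun x => S.slp p m x (S.F p m x) * S.Gst p m x := msl.mul mG
  have mslF : Measurable fun x => S.slp p m x (S.F p m x) * S.F p m x := msl.mul mF
  have mslF' : Measurable fun x => S.slp p m x (S.F p m x) * S.F p (m + 1) x := msl.mul mF'
  -- split
  rw [← lintegral_inter_add_diff _ (S.Rg p c m) hDm, ← lintegral_inter_add_diff
    (fun x => S.PsiE p m x (S.F p (m + 1) x)) (S.Rg p c m) hDm, ← lintegral_inter_add_diff
    (fun x => S.PsiE p m x (S.F p m x)) (S.Rg p c m) hDm]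
  -- good part
  have hgood : ∫⁻ x in S.Rg p c m ∩ D p, S.slp p m x (S.F p m x) * S.Gst p m x ∂stdGaussian E +
      18 * ∫⁻ x in S.Rg p c m ∩ D p, S.PsiE p m x (S.F p (m + 1) x) ∂stdGaussian E ≤
      18 * ∫⁻ x in S.Rg p c m ∩ D p, S.PsiE p m x (S.F p m x) ∂stdGaussian E := by
    rw [← lintegral_const_mul' _ _ h18, ← lintegral_const_mul' _ _ h18,
      ← lintegral_add_left mslG]
    refine setLIntegral_mono' (hR.inter hDm) fun x hx => ?_
    have h1 := starf_label hLam hC.δ hD h hm hn (not_Z_of_Rg hx.1 (List.suffix_refl p)) hx.2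
    have e18 : (18 : ℝ≥0∞) = ENNReal.ofReal 18 := by norm_num
    rw [e18] at h1 ⊢
    exact starf_good (by norm_num) (hFt x) h1
  -- bad part
  have hbad : ∫⁻ x in S.Rg p c m \ D p, S.slp p m x (S.F p m x) * S.Gst p m x ∂stdGaussian E +
      18 * ∫⁻ x in S.Rg p c m \ D p, S.PsiE p m x (S.F p (m + 1) x) ∂stdGaussian E ≤
      18 * ∫⁻ x in S.Rg p c m \ D p, S.PsiE p m x (S.F p m x) ∂stdGaussian E := by
    rcases eq_or_ne c 0 with rfl | hc
    swap
    · have he : S.Rg p c m \ D p = ∅ := by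
        rw [eq_empty_iff_forall_notMem]
        rintro x ⟨h1, h2⟩
        exact hc ((show S.kl p m x = c from h1.2).symm.trans
          (hD.bad p x (not_Z_of_Rg h1 (List.suffix_refl p)) h2))
      rw [he]
      simp
    set B := S.Rg p 0 m \ D p with hB
    have hBm : MeasurableSet B := hR.diff hDm
    have hpt : ∀ x ∈ B, x ∉ S.Z p m ∧ S.A p m x ≤ 1 / 8 ∧ 1 / 8 ≤ S.F p m x ∧
        1 / 8 ≤ S.F p (m + 1) x := by
      rintro x ⟨h1, h2⟩
      have hZ := not_Z_of_Rg h1 (List.suffix_refl p)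
      have hv := hD.val p x hZ h2
      have h8 : (1 / 8 : ℝ≥0∞) = ENNReal.ofReal (1 / 8) := by
        rw [ENNReal.ofReal_div_of_pos (by norm_num)]; simp
      refine ⟨hZ, ?_, ?_, ?_⟩
      · refine (S.A_le_of_not_Z hZ).trans ?_
        rw [h8]
        exact ENNReal.ofReal_le_ofReal (by linarith [b0_c (S := S)])
      · rw [hL.F_eq, h8]
        exact ENNReal.ofReal_le_ofReal hv.1
      · rw [hL'.F_eq, h8]
        exact ENNReal.ofReal_le_ofReal hv.2
    have key := star_bad hC hLam hU hD hroot h hm hl hn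
    rw [← hB] at key
    set κ : ℝ≥0∞ := ENNReal.ofReal (8 ^ S.th) with hκ
    have hκt : κ ≠ ⊤ := ENNReal.ofReal_ne_top
    have esl : ∀ x ∈ B, S.slp p m x (S.F p m x) = κ * S.As S.th p m x := fun x hx =>
      slp_big (hpt x hx).2.1 (hpt x hx).2.2.1 (hFt x)
    -- the three integrals
    have i1 : ∫⁻ x in B, S.slp p m x (S.F p m x) * S.Gst p m x ∂stdGaussian E =
        6 * κ * ∫⁻ x in B, S.As S.th p m x * fib (S.W p m) (S.gst p m) x ∂stdGaussian E := by
      rw [← lintegral_const_mul' _ _ (ENNReal.mul_ne_top (by norm_num) hκt)]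
      refine setLIntegral_congr_fun hBm fun x hx => ?_
      rw [esl x hx]
      unfold Gst
      ring
    have i2 : ∫⁻ x in B, S.slp p m x (S.F p m x) * S.F p (m + 1) x ∂stdGaussian E =
        κ * ∫⁻ x in B, S.As S.th p m x * S.F p (m + 1) x ∂stdGaussian E := by
      rw [← lintegral_const_mul' _ _ hκt]
      refine setLIntegral_congr_fun hBm fun x hx => ?_
      rw [esl x hx]
      ring
    have i3 : ∫⁻ x in B, S.slp p m x (S.F p m x) * S.F p m x ∂stdGaussian E =
        κ * ∫⁻ x in B, S.As S.th p m x * S.F p m x ∂stdGaussian E := by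
      rw [← lintegral_const_mul' _ _ hκt]
      refine setLIntegral_congr_fun hBm fun x hx => ?_
      rw [esl x hx]
      ring
    have key2 : ∫⁻ x in B, S.slp p m x (S.F p m x) * S.Gst p m x ∂stdGaussian E +
        18 * ∫⁻ x in B, S.slp p m x (S.F p m x) * S.F p (m + 1) x ∂stdGaussian E ≤
        18 * ∫⁻ x in B, S.slp p m x (S.F p m x) * S.F p m x ∂stdGaussian E := by
      rw [i1, i2, i3]
      calc _ = 6 * κ * (∫⁻ x in B, S.As S.th p m x * fib (S.W p m) (S.gst p m) x
            ∂stdGaussian E + 3 * ∫⁻ x in B, S.As S.th p m x * S.F p (m + 1) x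
            ∂stdGaussian E) := by ring
        _ ≤ 6 * κ * (3 * ∫⁻ x in B, S.As S.th p m x * S.F p m x ∂stdGaussian E) := by gcongr
        _ = _ := by ring
    -- linear relation
    have elin : ∫⁻ x in B, S.PsiE p m x (S.F p (m + 1) x) ∂stdGaussian E +
        ∫⁻ x in B, S.slp p m x (S.F p m x) * S.F p m x ∂stdGaussian E =
        ∫⁻ x in B, S.PsiE p m x (S.F p m x) ∂stdGaussian E +
        ∫⁻ x in B, S.slp p m x (S.F p m x) * S.F p (m + 1) x ∂stdGaussian E := by
      rw [← lintegral_add_right _ mslF, ← lintegral_add_right _ mslF']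
      refine setLIntegral_congr_fun hBm fun x hx => ?_
      exact PsiE_big (hpt x hx).2.1 (hpt x hx).2.2.1 (hFt x) (hpt x hx).2.2.2 (hFt' x)
    -- finiteness
    have hfin : ∫⁻ x in B, S.slp p m x (S.F p m x) * S.F p m x ∂stdGaussian E ≠ ⊤ := by
      refine ne_top_of_le_ne_top (b := (1 : ℝ≥0∞)) ENNReal.one_ne_top ?_
      calc _ ≤ ∫⁻ x in B, 1 ∂stdGaussian E := by
            refine setLIntegral_mono' hBm fun x hx => ?_
            refine mul_le_one' ?_ ?_
            · unfold slp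
              refine ENNReal.rpow_le_one ?_ S.hth.le
              exact ENNReal.div_le_of_le_mul (by rw [one_mul]; exact le_max_left _ _)
            · rw [hL.F_eq, ENNReal.ofReal_le_one]
              exact hL.Fr_UI.le_one x
        _ ≤ 1 := by
            rw [setLIntegral_one]
            exact prob_le_one
    have hCF : 18 * ∫⁻ x in B, S.slp p m x (S.F p m x) * S.F p m x ∂stdGaussian E ≠ ⊤ :=
      ENNReal.mul_ne_top h18 hfin
    refine ENNReal.le_of_add_le_add_right hCF ?_
    calc _ = ∫⁻ x in B, S.slp p m x (S.F p m x) * S.Gst p m x ∂stdGaussian E +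
          18 * (∫⁻ x in B, S.PsiE p m x (S.F p (m + 1) x) ∂stdGaussian E +
          ∫⁻ x in B, S.slp p m x (S.F p m x) * S.F p m x ∂stdGaussian E) := by ring
      _ = (∫⁻ x in B, S.slp p m x (S.F p m x) * S.Gst p m x ∂stdGaussian E +
          18 * ∫⁻ x in B, S.slp p m x (S.F p m x) * S.F p (m + 1) x ∂stdGaussian E) +
          18 * ∫⁻ x in B, S.PsiE p m x (S.F p m x) ∂stdGaussian E := by rw [elin]; ring
      _ ≤ 18 * ∫⁻ x in B, S.slp p m x (S.F p m x) * S.F p m x ∂stdGaussian E +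
          18 * ∫⁻ x in B, S.PsiE p m x (S.F p m x) ∂stdGaussian E := by gcongr
      _ = _ := by ring
  calc _ = (∫⁻ x in S.Rg p c m ∩ D p, S.slp p m x (S.F p m x) * S.Gst p m x ∂stdGaussian E +
      18 * ∫⁻ x in S.Rg p c m ∩ D p, S.PsiE p m x (S.F p (m + 1) x) ∂stdGaussian E) +
      (∫⁻ x in S.Rg p c m \ D p, S.slp p m x (S.F p m x) * S.Gst p m x ∂stdGaussian E +
      18 * ∫⁻ x in S.Rg p c m \ D p, S.PsiE p m x (S.F p (m + 1) x) ∂stdGaussian E) := by ring
    _ ≤ _ := add_le_add hgood hbad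
    _ = _ := by ring

/-! ### decomposition over the nodes of a level -/

open Classical in
/-- integrals over the counted labels of level `j`, node by node -/
lemma int_omj (j : ℕ) (hm : S.mv.tm m < S.T) (g : List ℕ → E → ℝ≥0∞) :
    ∫⁻ x, iw (S.omj j m) x * g (S.nd m x j) x ∂stdGaussian E =
      ∑ z ∈ (S.PC j).filter (fun z => ¬ S.Leaf z.2 m),
        ∫⁻ x in S.Rg z.2 z.1 m, g z.2 x ∂stdGaussian E := by
  set P := (S.PC j).filter (fun z => ¬ S.Leaf z.2 m) with hP
  have hOL : ∀ x, x ∈ S.OL (j + 1) m ↔ x ∈ S.OL j m ∧ x ∈ S.om (S.nd m x j) m := by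
    intro x
    constructor
    · intro h
      exact ⟨fun i hi => h i (by omega), h j (by omega)⟩
    · rintro ⟨h1, h2⟩ i hi
      rcases Nat.lt_succ_iff_lt_or_eq.mp hi with h | rfl
      · exact h1 i h
      · exact h2
  have hU : S.omj j m = ⋃ z ∈ P, S.Rg z.2 z.1 m := by
    ext x
    simp only [mem_iUnion, exists_prop]
    constructor
    · rintro ⟨⟨h1, h2⟩, h3⟩
      refine ⟨(S.kl (S.nd m x j) m x, S.nd m x j), ?_, ?_⟩
      · rw [hP, Finset.mem_filter]
        exact ⟨nd_mem_PC_c m x j, h1⟩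
      · exact (mem_Rg_iff_c (length_nd_c m x j)).mpr ⟨(hOL x).mpr ⟨h2, h3⟩, rfl⟩
    · rintro ⟨z, hz, hx⟩
      rw [hP, Finset.mem_filter] at hz
      have h1 := (mem_Rg_iff_c (mem_PC_c (c := z.1) (p := z.2) hz.1)).mp hx
      have h2 := (hOL x).mp h1.1
      have h3 : S.nd m x j = z.2 := by
        have := h1.2
        rw [nd_succ_c, List.cons.injEq] at this
        exact this.2
      refine ⟨⟨?_, h2.1⟩, h2.2⟩
      show ¬ S.Leaf (S.nd m x j) m
      rw [h3]
      exact hz.2
  have hnd : ∀ z ∈ P, ∀ x ∈ S.Rg z.2 z.1 m, S.nd m x j = z.2 ∧ S.kl z.2 m x = z.1 := by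
    intro z hz x hx
    rw [hP, Finset.mem_filter] at hz
    have h1 := (mem_Rg_iff_c (mem_PC_c (c := z.1) (p := z.2) hz.1)).mp hx
    have h2 := h1.2
    rw [nd_succ_c, List.cons.injEq] at h2
    exact ⟨h2.2, by rw [← h2.2]; exact h2.1⟩
  have hdis : ((P : Finset (ℕ × List ℕ)) : Set (ℕ × List ℕ)).PairwiseDisjoint
      fun z => S.Rg z.2 z.1 m := by
    intro z hz z' hz' hne
    show Disjoint _ _
    rw [Set.disjoint_left]
    intro x hx hx'
    have h1 := hnd z (Finset.mem_coe.mp hz) x hx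
    have h2 := hnd z' (Finset.mem_coe.mp hz') x hx'
    apply hne
    refine Prod.ext ?_ (h1.1.symm.trans h2.1)
    rw [← h1.2, ← h2.2, h1.1.symm.trans h2.1]
  have hmz : ∀ z ∈ P, MeasurableSet (S.Rg z.2 z.1 m) := fun z _ => measurableSet_Rg_c hm
  have hOm : MeasurableSet (S.omj j m) := by
    rw [hU]
    exact Finset.measurableSet_biUnion _ hmz
  unfold iw
  rw [int_ind hOm, hU, lintegral_biUnion_finset hdis hmz]
  refine Finset.sum_congr rfl fun z hz => ?_
  refine setLIntegral_congr_fun (hmz z hz) fun x hx => ?_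
  rw [(hnd z hz x hx).1]

/-- **(STARF)** for the price of 59 -/
theorem starF_of (hC : S.StarC) (hLam : 1 ≤ Lam) (hR : S.RimC Lam) (hU : S.ChainU Lam)
    (hH : ∀ m < S.mT, S.Healthy m) {G : List ℕ → ℕ → E → ℝ≥0∞}
    (hG : ∀ m < S.mT, S.mv.IsStar m → ∀ p x, ¬ S.Leaf p m → G p m x ≤ S.Gst p m x) :
    S.STARF G 18 := by
  classical
  intro j hj m hm h
  have ht := S.tm_lt_X hm
  have hD := starOK hC hR h hm
  have hroot : ∀ x, x ∈ S.DX m [] := root_good hC hm (hH m hm)
  have e18 : ENNReal.ofReal 18 = (18 : ℝ≥0∞) := by norm_num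
  rw [e18, int_omj j ht (fun p x => S.sw p m x * G p m x),
    int_omj j ht (fun p x => S.PsiE p m x (S.F p (m + 1) x)),
    int_omj j ht (fun p x => S.PsiE p m x (S.F p m x)), Finset.mul_sum, Finset.mul_sum,
    ← Finset.sum_add_distrib]
  refine Finset.sum_le_sum fun z hz => ?_
  rw [Finset.mem_filter] at hz
  have hlen := mem_PC_c (c := z.1) (p := z.2) hz.1
  have key := star_node hC hLam hU hD hroot h hm hz.2 (by rw [hlen]; exact hj) z.1
  refine le_trans (add_le_add ?_ le_rfl) key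
  refine setLIntegral_mono' (measurableSet_Rg_c ht) fun x _ => ?_
  exact mul_le_mul' sw_le (hG m hm h z.2 x hz.2)

/-- **(STARF)** -/
theorem starF (hC : S.StarC) (hLam : 1 ≤ Lam) (hR : S.RimC Lam)
    (hH : ∀ m < S.mT, S.Healthy m) {G : List ℕ → ℕ → E → ℝ≥0∞}
    (hG : ∀ m < S.mT, S.mv.IsStar m → ∀ p x, ¬ S.Leaf p m → G p m x ≤ S.Gst p m x) :
    S.STARF G 18 :=
  starF_of hC hLam hR (S.chainU hLam hC.δ hC.qq) hH hG

end Vale.Agent.P262.M2.Sys
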