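import Vale.Agent.P262.H924.Plug
import Vale.Agent.P262.H752.StarS7

/-!
# P262, milestone 2: the plug, block (STARF)
-/

set_option linter.all false

open MeasureTheory ProbabilityTheory Set
open scoped ENNReal

namespace Vale.Agent.P262.M2.Sys

variable {E : Type*} [NormedAddCommGroup E] [InnerProductSpace ℝ E] [FiniteDimensional ℝ E]
  [MeasurableSpace E] [BorelSpace E] {S : Sys E} {KU Cr a CT w : ℝ}

/-- **(STARF)** with all numerical hypotheses -/
theorem blk_STARF (N : S.Num KU Cr a CT w) (hH : ∀ k ≤ S.mT, S.Healthy k)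
    {Gi : List ℕ → ℕ → E → ℝ≥0∞} : S.STARF (S.GG Gi) 18 :=
  starF ⟨N.qq41, N.kp8.trans (by norm_num), N.δ⟩ le_rfl N.rim (fun m hm => hH m hm.le)
    fun m hm h p x _ => le_of_eq (by rw [GG_star hm h])

end Vale.Agent.P262.M2.Sys
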