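import Vale.Agent.P262.H395.KillStar

/-!
# P262, milestone 2: STAR-F, the one-step inequality for the nested mass of a cut-off field

At a star step `K → K' = star K v ∩ B` and at every healthy root label, the nested mass of the
cut-off field decreases by at least one third of (weighted gain + weighted loss + total variation of
the field).
-/

set_option linter.all false

open MeasureTheory ProbabilityTheory Set
open scoped ENNReal RealInnerProductSpace

namespace Vale.Agent.P262.H752

open Vale.Agent.P262.H395 Vale.Agent.P262.H59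
open Vale.Agent.P262.H395.KTree (Cyl Hea HK)
open Vale.Agent.P262.H493 (star)

/-- distance of two extended numbers -/
noncomputable def ed (u v : ℝ≥0∞) : ℝ≥0∞ := (u - v) + (v - u)

lemma ed_self (u : ℝ≥0∞) : ed u u = 0 := by simp [ed]

/-- tree of labels with good labels `G`, killed labels `Z`, cut-off functions `ph` -/
inductive FT (E : Type*) [NormedAddCommGroup E] [InnerProductSpace ℝ E] where
  | leaf : FT E
  | node (W : Submodule ℝ E) (G Z : Set E) (ph : E → ℝ≥0∞ → ℝ≥0∞) (cls : E → ℕ)
      (sub : ℕ → FT E) : FT E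

namespace FT

variable {E : Type*} [NormedAddCommGroup E] [InnerProductSpace ℝ E]

/-- the stopping tree: stopped at good labels -/
def toK : FT E → KTree E
  | leaf => KTree.leaf
  | node W G Z _ cls sub => KTree.node W G Z cls fun n => (sub n).toK

@[simp] lemma toK_leaf : (leaf : FT E).toK = KTree.leaf := rfl
@[simp] lemma toK_node (W : Submodule ℝ E) (G Z : Set E) (ph : E → ℝ≥0∞ → ℝ≥0∞) (cls : E → ℕ)
    (sub : ℕ → FT E) :
    (node W G Z ph cls sub).toK = KTree.node W G Z cls fun n => (sub n).toK := rfl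

variable [FiniteDimensional ℝ E] [MeasurableSpace E] [BorelSpace E]

open Classical in
/-- the nested field -/
noncomputable def fld : FT E → (E → ℝ≥0∞) → E → ℝ≥0∞
  | leaf, g => g
  | node W _ Z ph cls sub, g => fun x =>
      if x ∈ Z then 1 else ph x (fib W (fld (sub (cls x)) g) x) * fld (sub (cls x)) g x

open Classical in
/-- the nested weight -/
noncomputable def wt : FT E → (E → ℝ≥0∞) → E → ℝ≥0∞
  | leaf, _ => fun _ => 1
  | node W _ Z ph cls sub, g => fun x =>
      if x ∈ Z then 0 else ph x (fib W (fld (sub (cls x)) g) x) * wt (sub (cls x)) g x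

/-- admissible trees above `W0` -/
def OK : Submodule ℝ E → FT E → Prop
  | _, leaf => True
  | W0, node W G Z ph cls sub => W0 ≤ W ∧ MeasurableSet G ∧ Cyl W G ∧ Cyl W Z ∧ IsClosed Zᶜ ∧
      Convex ℝ Zᶜ ∧ Measurable cls ∧ Tree.InvN W cls ∧
      (Measurable fun q : E × ℝ≥0∞ => ph q.1 q.2) ∧ (∀ x, ∀ w ∈ Wᗮ, ph (x + w) = ph x) ∧
      (∀ x, Monotone (ph x)) ∧ ∀ n, OK W (sub n)

/-- the leaves lie at the lines in direction `v`, all labels are orthogonal to `v` -/
def Ends (v : E) : Submodule ℝ E → FT E → Prop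
  | W0, leaf => W0 = Hp v
  | _, node W _ _ _ _ sub => W ≤ Hp v ∧ ∀ n, Ends v W (sub n)

/-- the rim condition at the bad leaf lines -/
def Rim (K : Set E) (v : E) (R p Lam : ℝ) : FT E → Prop
  | leaf => True
  | node W G Z _ _ sub => (W = Hp v → ∀ x, x ∉ Z → x ∉ G → OnLine K v R p Lam x) ∧
      ∀ n, Rim K v R p Lam (sub n)

/-- the conditions along the path of a point: good labels are healthy for the star body, bad labels
are of class `0` and the cut-off does nothing there -/
def Cnd (K : Set E) (v : E) (g g' : E → ℝ≥0∞) : FT E → E → Prop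
  | leaf, _ => True
  | node W G Z ph cls sub, x => x ∉ Z →
      (x ∈ G → Hea K v (4 / 5) (sub 0).toK.frz W x ∧ Hea K v (2 / 3) (sub (cls x)).toK.frz W x) ∧
      (x ∉ G → cls x = 0 ∧ ph x (fib W (fld (sub (cls x)) g) x) = 1 ∧
        ph x (fib W (fld (sub (cls x)) g') x) = 1) ∧
      Cnd K v g g' (sub (cls x)) x

variable {K : Set E} {v : E} {R p Lam : ℝ} {g g' : E → ℝ≥0∞}

lemma toK_valid : ∀ {T : FT E} {W0 : Submodule ℝ E} (_ : T.OK W0), T.toK.Valid W0
  | leaf, _, _ => trivial
  | node W G Z ph cls sub, W0, h =>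
    ⟨h.1, h.2.1, h.2.2.1, h.2.2.2.1, h.2.2.2.2.1, h.2.2.2.2.2.1, h.2.2.2.2.2.2.1,
      h.2.2.2.2.2.2.2.1, fun n => toK_valid (h.2.2.2.2.2.2.2.2.2.2.2 n)⟩

lemma toK_below : ∀ {T : FT E} {W0 : Submodule ℝ E} (_ : T.Ends v W0), T.toK.Below (ℝ ∙ v)ᗮ
  | leaf, _, _ => trivial
  | node W G Z ph cls sub, W0, h => ⟨h.1, fun n => toK_below (h.2 n)⟩

lemma toK_HK : ∀ {T : FT E} {x : E} (_ : Cnd K v g g' T x), HK K v T.toK x
  | leaf, _, _ => trivial
  | node W G Z ph cls sub, x, h => by
    intro hZ
    obtain ⟨a, b, c⟩ := h hZ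
    refine ⟨fun h1 => ?_, fun h1 h2 => absurd (b h1).1 h2, fun _ => toK_HK c⟩
    by_cases hG : x ∈ G
    · exact (a hG).1
    · rcases h1 with h1 | h1
      · exact absurd h1 hG
      · exact absurd (b hG).1 h1

/-- on the never good, never killed points the field is the payoff -/
lemma on_reg : ∀ {T : FT E} {x : E} (_ : Cnd K v g g' T x) (_ : x ∈ T.toK.reg),
    fld T g x = g x ∧ fld T g' x = g' x ∧ wt T g x = 1
  | leaf, _, _, _ => ⟨rfl, rfl, rfl⟩
  | node W G Z ph cls sub, x, h, hx => by
    obtain ⟨hG, hZ, hr⟩ := hx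
    obtain ⟨_, b, c⟩ := h hZ
    obtain ⟨b1, b2, b3⟩ := b hG
    obtain ⟨h1, h2, h3⟩ := on_reg c hr
    simp only [fld, wt, if_neg hZ, b2, b3, one_mul]
    exact ⟨h1, h2, h3⟩

lemma rim_reg : ∀ {T : FT E} {W0 : Submodule ℝ E} (_ : T.Ends v W0) (_ : T.Rim K v R p Lam) {x : E}
    (_ : x ∈ T.toK.reg), T = leaf ∨ OnLine K v R p Lam x
  | leaf, _, _, _, _, _ => Or.inl rfl
  | node W G Z ph cls sub, W0, he, hr, x, hx => by
    right
    obtain ⟨hG, hZ, hx'⟩ := hx
    rcases rim_reg (he.2 (cls x)) (hr.2 (cls x)) hx' with h | h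
    · have h1 := he.2 (cls x)
      rw [h] at h1
      exact hr.1 h1 x hZ hG
    · exact h

/-- selection of a measurable family by a measurable class -/
lemma measurable_sel {c : E → ℕ} (hc : Measurable c) {H : ℕ → E → ℝ≥0∞}
    (hH : ∀ n, Measurable (H n)) : Measurable fun x => H (c x) x := by
  have h : Measurable fun q : ℕ × E => H q.1 q.2 := measurable_from_prod_countable_right fun n => hH n
  exact h.comp (hc.prodMk measurable_id)

lemma measurable_fld (hg : Measurable g) : ∀ {T : FT E} {W0 : Submodule ℝ E} (_ : T.OK W0),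
    Measurable (fld T g)
  | leaf, _, _ => hg
  | node W G Z ph cls sub, W0, h => by
    obtain ⟨h1, hG, hcG, hcZ, hZ, hZc, hcls, hci, hph, hpi, hpm, hsub⟩ := h
    have hZm : MeasurableSet Z := by simpa using hZ.measurableSet.compl
    have ih := fun n => measurable_fld hg (hsub n)
    refine Measurable.ite hZm measurable_const ?_
    refine Measurable.mul ?_ (measurable_sel hcls ih)
    exact hph.comp (measurable_id.prodMk (measurable_sel hcls fun n => measurable_fib (ih n)))

lemma measurable_wt (hg : Measurable g) : ∀ {T : FT E} {W0 : Submodule ℝ E} (_ : T.OK W0),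
    Measurable (wt T g)
  | leaf, _, _ => measurable_const
  | node W G Z ph cls sub, W0, h => by
    have h' := h
    obtain ⟨h1, hG, hcG, hcZ, hZ, hZc, hcls, hci, hph, hpi, hpm, hsub⟩ := h
    have hZm : MeasurableSet Z := by simpa using hZ.measurableSet.compl
    have ih := fun n => measurable_wt hg (hsub n)
    have ih' := fun n => measurable_fld hg (hsub n)
    refine Measurable.ite hZm measurable_const ?_
    refine Measurable.mul ?_ (measurable_sel hcls ih)
    exact hph.comp (measurable_id.prodMk (measurable_sel hcls fun n => measurable_fib (ih' n)))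

/-- indicator of the change of the body: gain plus loss -/
noncomputable def chg (K K' : Set E) (x : E) : ℝ≥0∞ :=
  (K' \ K).indicator 1 x + (K \ K').indicator 1 x

/-- weighted gain and loss, variation of the field, three times the new field -/
noncomputable def J (K K' : Set E) (T : FT E) (x : E) : ℝ≥0∞ :=
  wt T (Kᶜ.indicator 1) x * chg K K' x
    + ed (fld T (Kᶜ.indicator 1) x) (fld T (K'ᶜ.indicator 1) x)
    + 3 * fld T (K'ᶜ.indicator 1) x

lemma measurable_ed {α : Type*} [MeasurableSpace α] {a b : α → ℝ≥0∞} (ha : Measurable a)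
    (hb : Measurable b) : Measurable fun x => ed (a x) (b x) :=
  (ha.sub hb).add (hb.sub ha)

variable {K' : Set E}

lemma measurable_ci (hK : MeasurableSet K) : Measurable (Kᶜ.indicator (1 : E → ℝ≥0∞)) :=
  measurable_one.indicator hK.compl

lemma measurable_chg (hK : MeasurableSet K) (hK' : MeasurableSet K') : Measurable (chg K K') :=
  (measurable_one.indicator (hK'.diff hK)).add (measurable_one.indicator (hK.diff hK'))

lemma measurable_J (hK : MeasurableSet K) (hK' : MeasurableSet K') {T : FT E}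
    {W0 : Submodule ℝ E} (h : T.OK W0) : Measurable (J K K' T) :=
  (((measurable_wt (measurable_ci hK) h).mul (measurable_chg hK hK')).add
    (measurable_ed (measurable_fld (measurable_ci hK) h) (measurable_fld (measurable_ci hK') h))).add
    ((measurable_fld (measurable_ci hK') h).const_mul 3)

/-! ### arithmetic -/

lemma arith_reg {G L F F' : ℝ≥0∞} (hG : G ≠ ⊤) (h : F' + G = F + L) (hL : 8 * L ≤ G) :
    2 * G + 2 * L + 3 * F' ≤ 3 * F := by
  refine ENNReal.le_of_add_le_add_right hG ?_
  calc 2 * G + 2 * L + 3 * F' + G = 3 * (F' + G) + 2 * L := by ring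
    _ = 3 * (F + L) + 2 * L := by rw [h]
    _ = 3 * F + 5 * L := by ring
    _ ≤ 3 * F + 8 * L := by gcongr; norm_num
    _ ≤ 3 * F + G := by gcongr

lemma ed_mul_le {a b s t : ℝ≥0∞} (hab : b ≤ a) :
    ed (a * s) (b * t) ≤ a * ed s t + (a - b) * t := by
  unfold ed
  have h1 : a * s - b * t ≤ a * (s - t) + (a - b) * t := by
    rw [tsub_le_iff_right]
    calc a * s ≤ a * ((s - t) + t) := by gcongr; exact le_tsub_add
      _ = a * (s - t) + a * t := by ring
      _ ≤ a * (s - t) + ((a - b) + b) * t := by gcongr; exact le_tsub_add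
      _ = a * (s - t) + (a - b) * t + b * t := by ring
  have h2 : b * t - a * s ≤ a * (t - s) := by
    rw [tsub_le_iff_right]
    calc b * t ≤ a * t := by gcongr
      _ ≤ a * ((t - s) + s) := by gcongr; exact le_tsub_add
      _ = a * (t - s) + a * s := by ring
  calc (a * s - b * t) + (b * t - a * s) ≤ (a * (s - t) + (a - b) * t) + a * (t - s) :=
        add_le_add h1 h2
    _ = a * ((s - t) + (t - s)) + (a - b) * t := by ring

/-- the pointwise inequality of the cut-off step -/
lemma cut_step {a b w c s t : ℝ≥0∞} (hab : b ≤ a) :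
    a * w * c + ed (a * s) (b * t) + 3 * (b * t) ≤ a * (w * c + ed s t + 3 * t) := by
  have h1 := ed_mul_le (s := s) (t := t) hab
  have h2 : (a - b) + 3 * b ≤ 3 * a := by
    calc (a - b) + 3 * b = ((a - b) + b) + 2 * b := by ring
      _ = a + 2 * b := by rw [tsub_add_cancel_of_le hab]
      _ ≤ a + 2 * a := by gcongr
      _ = 3 * a := by ring
  calc a * w * c + ed (a * s) (b * t) + 3 * (b * t)
      ≤ a * w * c + (a * ed s t + (a - b) * t) + 3 * (b * t) := by gcongr
    _ = a * (w * c + ed s t) + ((a - b) + 3 * b) * t := by ring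
    _ ≤ a * (w * c + ed s t) + (3 * a) * t := by gcongr
    _ = a * (w * c + ed s t + 3 * t) := by ring

/-! ### the payoff -/

lemma payoff_eq (x : E) : K'ᶜ.indicator (1 : E → ℝ≥0∞) x + (K' \ K).indicator 1 x
    = Kᶜ.indicator 1 x + (K \ K').indicator 1 x := by
  by_cases h : x ∈ K <;> by_cases h' : x ∈ K' <;> simp [h, h']

lemma ed_payoff (x : E) : ed (Kᶜ.indicator (1 : E → ℝ≥0∞) x) (K'ᶜ.indicator 1 x)
    = (K' \ K).indicator 1 x + (K \ K').indicator 1 x := by
  unfold ed
  by_cases h : x ∈ K <;> by_cases h' : x ∈ K' <;> simp [h, h']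

/-- the part of the inequality where the field is the payoff -/
lemma reg_part (hK : MeasurableSet K) (hK' : MeasurableSet K') {W0 : Submodule ℝ E} {x0 : E}
    {ω : E → ℝ≥0∞} (hω : Measurable ω)
    (hfin : fib W0 (fun y => ω y * (K' \ K).indicator 1 y) x0 ≠ ⊤)
    (hU : 8 * fib W0 (fun y => ω y * (K \ K').indicator 1 y) x0
      ≤ fib W0 (fun y => ω y * (K' \ K).indicator 1 y) x0) :
    fib W0 (fun y => ω y * (chg K K' y + ed (Kᶜ.indicator 1 y) (K'ᶜ.indicator 1 y)
      + 3 * K'ᶜ.indicator 1 y)) x0 ≤ 3 * fib W0 (fun y => ω y * Kᶜ.indicator 1 y) x0 := by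
  have mG : Measurable fun y => ω y * (K' \ K).indicator (1 : E → ℝ≥0∞) y :=
    hω.mul (measurable_one.indicator (hK'.diff hK))
  have mL : Measurable fun y => ω y * (K \ K').indicator (1 : E → ℝ≥0∞) y :=
    hω.mul (measurable_one.indicator (hK.diff hK'))
  have mF : Measurable fun y => ω y * Kᶜ.indicator (1 : E → ℝ≥0∞) y :=
    hω.mul (measurable_ci hK)
  have mF' : Measurable fun y => ω y * K'ᶜ.indicator (1 : E → ℝ≥0∞) y :=
    hω.mul (measurable_ci hK')
  have e : fib W0 (fun y => ω y * K'ᶜ.indicator 1 y) x0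
      + fib W0 (fun y => ω y * (K' \ K).indicator 1 y) x0
      = fib W0 (fun y => ω y * Kᶜ.indicator 1 y) x0
      + fib W0 (fun y => ω y * (K \ K').indicator 1 y) x0 := by
    rw [← fib_add mF', ← fib_add mF]
    congr 1
    funext y
    rw [← mul_add, ← mul_add, payoff_eq]
  refine le_trans (le_of_eq ?_) (arith_reg hfin e hU)
  have c : ∀ (k : ℝ≥0∞) (f : E → ℝ≥0∞), Measurable f → k * fib W0 f x0
      = fib W0 (fun y => k * f y) x0 := fun k f hf => (fib_mul (inv_const W0 k) hf x0).symm
  rw [c 2 _ mG, c 2 _ mL, c 3 _ mF', ← fib_add (mG.const_mul 2),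
    ← fib_add_right (mF'.const_mul 3)]
  congr 1
  funext y
  rw [ed_payoff]
  unfold chg
  ring

/-! ### fibres -/

lemma fib_mono_fibre {W : Submodule ℝ E} {f h : E → ℝ≥0∞} {x0 : E}
    (H : ∀ x, W.starProjection x = W.starProjection x0 → f x ≤ h x) : fib W f x0 ≤ fib W h x0 := by
  unfold fib
  exact lintegral_mono fun z => H _ (starProjection_mix W x0 z)

/-- value of the field of a node in the fibre of a label which is not killed -/
lemma fld_node {W : Submodule ℝ E} {G Z : Set E} {ph : E → ℝ≥0∞ → ℝ≥0∞} {cls : E → ℕ}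
    {sub : ℕ → FT E} {W0 : Submodule ℝ E} (h : (node W G Z ph cls sub).OK W0) {x y : E}
    (hxy : W.starProjection x = W.starProjection y) (hy : y ∉ Z) :
    fld (node W G Z ph cls sub) g x
      = ph y (fib W (fld (sub (cls y)) g) y) * fld (sub (cls y)) g x := by
  obtain ⟨h1, hG, hcG, hcZ, hZ, hZc, hcls, hci, hph, hpi, hpm, hsub⟩ := h
  have hx : x ∉ Z := fun h => hy ((hcZ.mem_iff hxy).mp h)
  have hc : cls x = cls y := hci.eq_of hxy
  have hd : x - y ∈ Wᗮ := by
    rw [← Submodule.starProjection_apply_eq_zero_iff, map_sub, hxy, sub_self]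
  have hp : ph x = ph y := by
    have := hpi y (x - y) hd
    rwa [add_sub_cancel] at this
  simp only [fld, if_neg hx, hc, hp]
  rw [(inv_fib W (fld (sub (cls y)) g)).eq_of hxy]

lemma wt_node {W : Submodule ℝ E} {G Z : Set E} {ph : E → ℝ≥0∞ → ℝ≥0∞} {cls : E → ℕ}
    {sub : ℕ → FT E} {W0 : Submodule ℝ E} (h : (node W G Z ph cls sub).OK W0) {x y : E}
    (hxy : W.starProjection x = W.starProjection y) (hy : y ∉ Z) :
    wt (node W G Z ph cls sub) g x
      = ph y (fib W (fld (sub (cls y)) g) y) * wt (sub (cls y)) g x := by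
  obtain ⟨h1, hG, hcG, hcZ, hZ, hZc, hcls, hci, hph, hpi, hpm, hsub⟩ := h
  have hx : x ∉ Z := fun h => hy ((hcZ.mem_iff hxy).mp h)
  have hc : cls x = cls y := hci.eq_of hxy
  have hd : x - y ∈ Wᗮ := by
    rw [← Submodule.starProjection_apply_eq_zero_iff, map_sub, hxy, sub_self]
  have hp : ph x = ph y := by
    have := hpi y (x - y) hd
    rwa [add_sub_cancel] at this
  simp only [wt, if_neg hx, hc, hp]
  rw [(inv_fib W (fld (sub (cls y)) g)).eq_of hxy]

/-- the inequality at a root label -/
def P (K K' : Set E) (T : FT E) (W : Submodule ℝ E) (x : E) : Prop :=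
  fib W (J K K' T) x ≤ 3 * fib W (fld T (Kᶜ.indicator 1)) x

/-- the inequality off the never good, never killed points -/
def Q (K K' : Set E) (T : FT E) (W : Submodule ℝ E) (x : E) : Prop :=
  fib W (T.toK.regᶜ.indicator (J K K' T)) x
    ≤ 3 * fib W (T.toK.regᶜ.indicator (fld T (Kᶜ.indicator 1))) x

lemma ind_eq {s : Set E} {f : E → ℝ≥0∞} {x : E} (h : x ∈ s) : s.indicator f x = f x :=
  indicator_of_mem h f

/-- one node, one label -/
lemma Q_label {W : Submodule ℝ E} {G Z : Set E} {ph : E → ℝ≥0∞ → ℝ≥0∞} {cls : E → ℕ}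
    {sub : ℕ → FT E} {W0 : Submodule ℝ E} (hK : MeasurableSet K) (hK' : MeasurableSet K')
    (h : (node W G Z ph cls sub).OK W0) {y : E}
    (hP : y ∉ Z → y ∈ G → P K K' (sub (cls y)) W y)
    (hQ : y ∉ Z → y ∉ G → Q K K' (sub (cls y)) W y ∧
      ph y (fib W (fld (sub (cls y)) (Kᶜ.indicator 1)) y) = 1 ∧
      ph y (fib W (fld (sub (cls y)) (K'ᶜ.indicator 1)) y) = 1) :
    Q K K' (node W G Z ph cls sub) W y := by
  have h0 := h
  obtain ⟨h1, hG, hcG, hcZ, hZ, hZc, hcls, hci, hph, hpi, hpm, hsub⟩ := h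
  have c : ∀ (k : ℝ≥0∞) (f : E → ℝ≥0∞), Measurable f → k * fib W f y
      = fib W (fun y => k * f y) y := fun k f hf => (fib_mul (inv_const W k) hf y).symm
  by_cases hyZ : y ∈ Z
  · -- killed
    have hz : ∀ x, W.starProjection x = W.starProjection y → x ∈ Z := fun x hx =>
      (hcZ.mem_iff hx).mpr hyZ
    have hr : ∀ x, W.starProjection x = W.starProjection y →
        x ∈ (node W G Z ph cls sub).toK.regᶜ := fun x hx hxr => hxr.2.1 (hz x hx)
    have e1 : fib W ((node W G Z ph cls sub).toK.regᶜ.indicator (J K K' (node W G Z ph cls sub))) y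
        = 3 := by
      rw [KTree.fib_congr_fibre (g := fun _ => (3 : ℝ≥0∞)) fun x hx => ?_, fib_const]
      rw [ind_eq (hr x hx)]
      simp only [J, wt, fld, if_pos (hz x hx), ed_self]
      simp
    have e2 : fib W ((node W G Z ph cls sub).toK.regᶜ.indicator
        (fld (node W G Z ph cls sub) (Kᶜ.indicator 1))) y = 1 := by
      rw [KTree.fib_congr_fibre (g := fun _ => (1 : ℝ≥0∞)) fun x hx => ?_, fib_const]
      rw [ind_eq (hr x hx)]
      simp only [fld, if_pos (hz x hx)]
    unfold Q
    rw [e1, e2, mul_one]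
  · set s := sub (cls y) with hs
    have hsOK : s.OK W := hsub _
    have mf := measurable_fld (g := Kᶜ.indicator 1) (measurable_ci hK) hsOK
    have mf' := measurable_fld (g := K'ᶜ.indicator 1) (measurable_ci hK') hsOK
    have mJ := measurable_J hK hK' hsOK
    by_cases hyG : y ∈ G
    · -- good
      have hr : ∀ x, W.starProjection x = W.starProjection y →
          x ∈ (node W G Z ph cls sub).toK.regᶜ := fun x hx hxr =>
        hxr.1 ((hcG.mem_iff hx).mpr hyG)
      have hPy := hP hyZ hyG
      set x1 := fib W (fld s (Kᶜ.indicator 1)) y with hx1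
      set x2 := fib W (fld s (K'ᶜ.indicator 1)) y with hx2
      have h21 : x2 ≤ x1 := by
        have h3 : 3 * x2 ≤ 3 * x1 := by
          refine le_trans ?_ hPy
          rw [hx2, c 3 _ mf']
          exact fib_mono (fun z => le_add_self) y
        exact (ENNReal.mul_le_mul_iff_right (by norm_num) (by norm_num)).mp h3
      have hmono := hpm y h21
      unfold Q
      calc fib W ((node W G Z ph cls sub).toK.regᶜ.indicator
            (J K K' (node W G Z ph cls sub))) y
          ≤ fib W (fun z => ph y x1 * J K K' s z) y := by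
            refine fib_mono_fibre fun x hx => ?_
            rw [ind_eq (hr x hx)]
            unfold J
            rw [fld_node h0 hx hyZ, fld_node h0 hx hyZ, wt_node h0 hx hyZ]
            exact cut_step hmono
        _ = ph y x1 * fib W (J K K' s) y := fib_mul (inv_const W _) mJ y
        _ ≤ ph y x1 * (3 * x1) := by gcongr; exact hPy
        _ = 3 * (ph y x1 * x1) := by ring
        _ = 3 * fib W ((node W G Z ph cls sub).toK.regᶜ.indicator
              (fld (node W G Z ph cls sub) (Kᶜ.indicator 1))) y := by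
            congr 1
            rw [hx1, ← fib_mul (inv_const W _) mf y]
            refine KTree.fib_congr_fibre fun x hx => ?_
            rw [ind_eq (hr x hx), fld_node h0 hx hyZ]
    · -- bad
      obtain ⟨hQy, hp1, hp2⟩ := hQ hyZ hyG
      have hr : ∀ x, W.starProjection x = W.starProjection y →
          (x ∈ (node W G Z ph cls sub).toK.reg ↔ x ∈ s.toK.reg) := fun x hx => by
        simp only [toK_node, KTree.reg_node, mem_setOf_eq]
        rw [hci.eq_of hx]
        constructor
        · exact fun h => h.2.2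
        · exact fun h => ⟨fun h' => hyG ((hcG.mem_iff hx).mp h'),
            fun h' => hyZ ((hcZ.mem_iff hx).mp h'), h⟩
      have e : ∀ f f' : E → ℝ≥0∞, (∀ x, W.starProjection x = W.starProjection y → f x = f' x) →
          fib W ((node W G Z ph cls sub).toK.regᶜ.indicator f) y
            = fib W (s.toK.regᶜ.indicator f') y := by
        intro f f' hf
        refine KTree.fib_congr_fibre fun x hx => ?_
        by_cases hxr : x ∈ s.toK.reg
        · rw [indicator_of_notMem (show x ∉ (node W G Z ph cls sub).toK.regᶜ from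
              fun h => h ((hr x hx).mpr hxr)),
            indicator_of_notMem (show x ∉ s.toK.regᶜ from fun h => h hxr)]
        · rw [ind_eq (show x ∈ (node W G Z ph cls sub).toK.regᶜ from
            fun h => hxr ((hr x hx).mp h)), ind_eq (show x ∈ s.toK.regᶜ from hxr), hf x hx]
      unfold Q
      rw [e _ (J K K' s) fun x hx => ?_, e _ (fld s (Kᶜ.indicator 1)) fun x hx => ?_]
      · exact hQy
      · rw [fld_node h0 hx hyZ, hp1, one_mul]
      · unfold J
        rw [fld_node h0 hx hyZ, fld_node h0 hx hyZ, wt_node h0 hx hyZ, hp1, hp2, one_mul, one_mul,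
          one_mul]

/-- from labels of a larger space to labels of a smaller one -/
lemma Q_mono {T : FT E} {W0 W : Submodule ℝ E} (hW : W0 ≤ W) (hK : MeasurableSet K)
    (hK' : MeasurableSet K') (h : T.OK W0) {x0 : E}
    (hQ : ∀ y, W0.starProjection y = W0.starProjection x0 → Q K K' T W y) : Q K K' T W0 x0 := by
  have hrm := (KTree.measurableSet_reg (toK_valid h)).compl
  have mJ := (measurable_J hK hK' h).indicator hrm
  have mf := (measurable_fld (g := Kᶜ.indicator 1) (measurable_ci hK) h).indicator hrm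
  unfold Q
  rw [← fib_tower hW mJ, ← fib_tower hW mf, ← fib_mul (inv_const W0 3) (measurable_fib mf)]
  exact fib_mono_fibre fun y hy => hQ y hy

/-- no loss on a good line -/
lemma no_loss_line (hv : v ≠ 0) (hv' : ‖v‖ ≤ 1 / 3000) (hK : IsClosed K) (hKc : Convex ℝ K)
    (hKR : K ⊆ Metric.closedBall 0 R) {C : Set E} {x : E} (hh : Hea K v (2 / 3) C (Hp v) x) :
    fib (Hp v) ((K \ (star K v ∩ Metric.closedBall 0 R)).indicator 1) x = 0 := by
  have hδ : 0 < ‖v‖ := norm_pos_iff.mpr hv
  have hSm := measurableSet_star hK hKR hv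
  have hBm : MeasurableSet (Metric.closedBall (0 : E) R) := Metric.isClosed_closedBall.measurableSet
  have hKm := hK.measurableSet
  set e : E := (‖v‖⁻¹ : ℝ) • v with he
  set q : E := (Hp v).starProjection x with hq
  set I : Set ℝ := {r : ℝ | q + r • e ∈ K} with hI
  have hIm : MeasurableSet I := by
    have : Measurable fun r : ℝ => q + r • e := by fun_prop
    exact this hKm
  have hSI : {r : ℝ | q + r • e ∈ star K v} = star1 I ‖v‖ := H59.line_star hv q
  -- two points far apart
  have key : ∃ l ∈ I, ∃ r ∈ I, 2 * ‖v‖ ≤ r - l := by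
    by_contra hcon
    push Not at hcon
    have hpos : (0 : ℝ≥0∞) < ENNReal.ofReal (2 / 3) := by simp
    rcases hh with h | h
    · have h1 : fib (Hp v) ((star K v ∩ C).indicator 1) x ≤ 0 := by
        calc fib (Hp v) ((star K v ∩ C).indicator 1) x
            ≤ fib (Hp v) ((star K v).indicator 1) x := fib_mono (fun z => by
              by_cases hz : z ∈ star K v ∩ C
              · rw [indicator_of_mem hz, indicator_of_mem hz.1]
              · rw [indicator_of_notMem hz]; exact bot_le) x
          _ = gaussianReal 0 1 {r : ℝ | q + r • e ∈ star K v} := H59.fib_line hv hSm x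
          _ = gaussianReal 0 1 ∅ := by
            rw [hSI]
            congr 1
            rw [Set.eq_empty_iff_forall_notMem]
            rintro t ⟨l, hl, r, hr, h2, _, _⟩
            exact absurd h2 (not_le.mpr (hcon l hl r hr))
          _ ≤ 0 := by simp
      exact absurd (hpos.trans_le (h.trans h1)) (lt_irrefl _)
    · have h1 : fib (Hp v) ((K ∩ C).indicator 1) x ≤ gaussianReal 0 1 I := by
        calc fib (Hp v) ((K ∩ C).indicator 1) x
            ≤ fib (Hp v) (K.indicator 1) x := fib_mono (fun z => by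
              by_cases hz : z ∈ K ∩ C
              · rw [indicator_of_mem hz, indicator_of_mem hz.1]
              · rw [indicator_of_notMem hz]; exact bot_le) x
          _ = gaussianReal 0 1 I := H59.fib_line hv hKm x
      have h2 := h.trans h1
      rcases Set.eq_empty_or_nonempty I with hIe | ⟨r0, hr0⟩
      · rw [hIe, measure_empty] at h2
        exact absurd (hpos.trans_le h2) (lt_irrefl _)
      · have hsub : I ⊆ Icc (r0 - 2 * ‖v‖) (r0 + 2 * ‖v‖) := by
          intro r hr
          have h3 := hcon r0 hr0 r hr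
          have h4 := hcon r hr r0 hr0
          exact ⟨by linarith, by linarith⟩
        have h3 : gaussianReal 0 1 I ≤ H493.kk * 1 * volume I :=
          H493.gauss_le (fun x _ => H493.ee_le_one x) hIm
        have h4 : volume I ≤ ENNReal.ofReal (4 * ‖v‖) := by
          refine (measure_mono hsub).trans (le_of_eq ?_)
          rw [Real.volume_Icc]
          congr 1
          ring
        have hk1 : H493.kk ≤ 1 := by
          unfold H493.kk
          rw [← ENNReal.ofReal_one]
          apply ENNReal.ofReal_le_ofReal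
          have h6 : (1 : ℝ) ≤ Real.sqrt (2 * Real.pi) := by
            rw [Real.one_le_sqrt]
            linarith [Real.pi_gt_three]
          exact inv_le_one_of_one_le₀ h6
        have h5 : ENNReal.ofReal (2 / 3) ≤ ENNReal.ofReal (4 * ‖v‖) := by
          refine h2.trans (h3.trans ?_)
          calc H493.kk * 1 * volume I ≤ 1 * 1 * ENNReal.ofReal (4 * ‖v‖) := by gcongr
            _ = _ := by ring
        rw [ENNReal.ofReal_le_ofReal_iff (by positivity)] at h5
        linarith
  obtain ⟨l, hl, r, hr, hlr⟩ := key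
  rw [H59.fib_line hv (hKm.diff (hSm.inter hBm))]
  convert measure_empty (μ := gaussianReal 0 1)
  rw [Set.eq_empty_iff_forall_notMem]
  rintro t ⟨ht1, ht2⟩
  apply ht2
  refine ⟨?_, hKR ht1⟩
  have ht : t ∈ star1 I ‖v‖ := by
    refine ⟨min l t, ?_, max r t, ?_, ?_, ?_, ?_⟩
    · rcases min_choice l t with h | h <;> rw [h]
      · exact hl
      · exact ht1
    · rcases max_choice r t with h | h <;> rw [h]
      · exact hr
      · exact ht1
    · have := min_le_left l t
      have := le_max_left r t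
      linarith
    · have := min_le_right l t
      linarith
    · have := le_max_right r t
      linarith
  rw [← hSI] at ht
  exact ht

/-- assemble the inequality, with a weight -/
lemma combine {T : FT E} {W0 W1 : Submodule ℝ E} (hW : W0 ≤ W1) (hK : MeasurableSet K)
    (hK' : MeasurableSet K') (h : T.OK W1) {ω : E → ℝ≥0∞} (hω : Inv W1 ω) (hωm : Measurable ω)
    {x0 : E}
    (hc : ∀ y, W0.starProjection y = W0.starProjection x0 → ω y ≠ 0 →
      Cnd K v (Kᶜ.indicator 1) (K'ᶜ.indicator 1) T y)
    (hfin : fib W0 (fun y => (ω y * T.toK.reg.indicator 1 y) * (K' \ K).indicator 1 y) x0 ≠ ⊤)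
    (hU : 8 * fib W0 (fun y => (ω y * T.toK.reg.indicator 1 y) * (K \ K').indicator 1 y) x0
      ≤ fib W0 (fun y => (ω y * T.toK.reg.indicator 1 y) * (K' \ K).indicator 1 y) x0)
    (hQ : ∀ y, W0.starProjection y = W0.starProjection x0 → ω y ≠ 0 → Q K K' T W1 y) :
    fib W0 (fun y => ω y * J K K' T y) x0
      ≤ 3 * fib W0 (fun y => ω y * fld T (Kᶜ.indicator 1) y) x0 := by
  have hrm := KTree.measurableSet_reg (toK_valid h)
  have mJ := measurable_J hK hK' h
  have mf := measurable_fld (g := Kᶜ.indicator 1) (measurable_ci hK) h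
  have hωr : Measurable fun y => ω y * T.toK.reg.indicator (1 : E → ℝ≥0∞) y :=
    hωm.mul (measurable_one.indicator hrm)
  have hreg := reg_part hK hK' hωr hfin hU
  -- the complement
  have hcomp : fib W0 (fun y => ω y * T.toK.regᶜ.indicator (J K K' T) y) x0
      ≤ 3 * fib W0 (fun y => ω y * T.toK.regᶜ.indicator (fld T (Kᶜ.indicator 1)) y) x0 := by
    have m1 := mJ.indicator hrm.compl
    have m2 := mf.indicator hrm.compl
    have n1 : Measurable fun y => ω y * T.toK.regᶜ.indicator (J K K' T) y := hωm.mul m1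
    have n2 : Measurable fun y => ω y * T.toK.regᶜ.indicator (fld T (Kᶜ.indicator 1)) y :=
      hωm.mul m2
    rw [← fib_tower hW n1, ← fib_tower hW n2, ← fib_mul (inv_const W0 3) (measurable_fib n2)]
    refine fib_mono_fibre fun y hy => ?_
    show fib W1 (fun z => ω z * T.toK.regᶜ.indicator (J K K' T) z) y
      ≤ 3 * fib W1 (fun z => ω z * T.toK.regᶜ.indicator (fld T (Kᶜ.indicator 1)) z) y
    rw [fib_mul hω m1, fib_mul hω m2]
    by_cases h0 : ω y = 0
    · simp [h0]
    · calc _ ≤ ω y * (3 * fib W1 (T.toK.regᶜ.indicator (fld T (Kᶜ.indicator 1))) y) := by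
            gcongr; exact hQ y hy h0
        _ = _ := by ring
  have split : ∀ f : E → ℝ≥0∞, Measurable f → fib W0 (fun y => ω y * f y) x0
      = fib W0 (fun y => (ω y * T.toK.reg.indicator 1 y) * f y) x0
        + fib W0 (fun y => ω y * T.toK.regᶜ.indicator f y) x0 := by
    intro f hf
    have n1 : Measurable fun y => (ω y * T.toK.reg.indicator (1 : E → ℝ≥0∞) y) * f y := hωr.mul hf
    rw [← fib_add n1]
    congr 1
    funext y
    by_cases hy : y ∈ T.toK.reg
    · rw [ind_eq hy, indicator_of_notMem (fun h : y ∈ T.toK.regᶜ => h hy)]; simp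
    · rw [indicator_of_notMem hy, ind_eq (show y ∈ T.toK.regᶜ from hy)]; simp
  rw [split _ mJ, split _ mf, mul_add]
  refine add_le_add ?_ hcomp
  refine le_trans (le_of_eq ?_) (hreg.trans (le_of_eq ?_))
  · refine KTree.fib_congr_fibre fun y hy => ?_
    by_cases hyr : y ∈ T.toK.reg
    · by_cases h0 : ω y = 0
      · simp [h0]
      · obtain ⟨a1, a2, a3⟩ := on_reg (hc y hy h0) hyr
        unfold J
        rw [a1, a2, a3, one_mul]
    · rw [indicator_of_notMem hyr]; simp
  · congr 1
    refine KTree.fib_congr_fibre fun y hy => ?_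
    by_cases hyr : y ∈ T.toK.reg
    · by_cases h0 : ω y = 0
      · simp [h0]
      · obtain ⟨a1, a2, a3⟩ := on_reg (hc y hy h0) hyr
        rw [a1]
    · rw [indicator_of_notMem hyr]; simp

/-- combine for a single root label -/
lemma combine_root {T : FT E} {W : Submodule ℝ E} (hK : MeasurableSet K)
    (hK' : MeasurableSet K') (h : T.OK W) {x : E}
    (hc : ∀ y, W.starProjection y = W.starProjection x →
      Cnd K v (Kᶜ.indicator 1) (K'ᶜ.indicator 1) T y)
    (hU : 8 * fib W (fun y => T.toK.reg.indicator 1 y * (K \ K').indicator 1 y) x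
      ≤ fib W (fun y => T.toK.reg.indicator 1 y * (K' \ K).indicator 1 y) x)
    (hQ : Q K K' T W x) : P K K' T W x := by
  have hle : fib W (fun y => T.toK.reg.indicator 1 y * (K' \ K).indicator 1 y) x ≤ 1 := by
    refine fib_le_one (fun y => ?_) x
    by_cases h1 : y ∈ T.toK.reg <;> by_cases h2 : y ∈ K' \ K
    · rw [ind_eq h1, ind_eq h2]; simp
    · rw [ind_eq h1, indicator_of_notMem h2]; simp
    · rw [indicator_of_notMem h1]; simp
    · rw [indicator_of_notMem h1]; simp
  have := combine (v := v) (W0 := W) (W1 := W) le_rfl hK hK' h (ω := fun _ => 1) (inv_const W 1)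
    measurable_const (x0 := x) (fun y hy _ => hc y hy)
    (by simp only [one_mul]; exact (hle.trans_lt ENNReal.one_lt_top).ne)
    (by simp only [one_mul]; exact hU)
    (fun y hy _ => by
      unfold Q at hQ ⊢
      rw [(inv_fib W _).eq_of hy, (inv_fib W _).eq_of hy]
      exact hQ)
  simp only [one_mul] at this
  exact this

/-- **main induction** -/
theorem main (hv : v ≠ 0) (hv' : ‖v‖ ≤ 1 / 160000) (hK : IsClosed K) (hKc : Convex ℝ K)
    (hKR : K ⊆ Metric.closedBall 0 R) (hp0 : 0 ≤ p) (hp : p ≤ 1 / 4) (hL : 1 ≤ Lam)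
    (hK' : K' = star K v ∩ Metric.closedBall 0 R) (T : FT E) :
    (∀ (W : Submodule ℝ E) (_ : T.OK W) (_ : T.Ends v W) (_ : T.Rim K v R p Lam) (_ : W ≤ Hp v)
      (x : E) (_ : ∀ y, W.starProjection y = W.starProjection x →
        Cnd K v (Kᶜ.indicator 1) (K'ᶜ.indicator 1) T y)
      (_ : Hea K v (2 / 3) T.toK.frz W x), P K K' T W x) ∧
    (∀ (W : Submodule ℝ E) (_ : T.OK W) (_ : T.Ends v W) (_ : T.Rim K v R p Lam)
      (x : E) (_ : ∀ y, W.starProjection y = W.starProjection x →
        Cnd K v (Kᶜ.indicator 1) (K'ᶜ.indicator 1) T y), Q K K' T W x) := by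
  have hδ : 0 < ‖v‖ := norm_pos_iff.mpr hv
  have hSm := measurableSet_star hK hKR hv
  have hBm : MeasurableSet (Metric.closedBall (0 : E) R) := Metric.isClosed_closedBall.measurableSet
  have hKm := hK.measurableSet
  have hKm' : MeasurableSet K' := by rw [hK']; exact hSm.inter hBm
  induction T with
  | leaf =>
    have hQ : ∀ (W : Submodule ℝ E) (x : E), Q K K' (leaf : FT E) W x := by
      intro W x
      unfold Q
      simp only [toK_leaf, KTree.reg_leaf, compl_univ, indicator_empty]
      have e : fib W (0 : E → ℝ≥0∞) x = 0 := fib_const W 0 x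
      have e' : fib W (fun _ : E => (0 : ℝ≥0∞)) x = 0 := fib_const W 0 x
      rw [e']
      exact bot_le
    refine ⟨fun W h1 h2 h3 h4 x hc hh => ?_, fun W _ _ _ x _ => hQ W x⟩
    refine combine_root hKm hKm' h1 hc ?_ (hQ W x)
    have hW : W = Hp v := h2
    have h0 : fib W ((K \ K').indicator 1) x = 0 := by
      rw [hW, hK']
      rw [hW] at hh
      exact no_loss_line hv (by linarith) hK hKc hKR hh
    simp only [toK_leaf, KTree.reg_leaf, indicator_univ, Pi.one_apply, one_mul]
    have e : fib W (fun y => (K \ K').indicator 1 y) x = 0 := h0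
    rw [e, mul_zero]
    exact bot_le
  | node W1 G Z ph cls sub ih =>
    have hQ : ∀ (W : Submodule ℝ E) (_ : (node W1 G Z ph cls sub).OK W)
        (_ : (node W1 G Z ph cls sub).Ends v W) (_ : (node W1 G Z ph cls sub).Rim K v R p Lam)
        (x : E) (_ : ∀ y, W.starProjection y = W.starProjection x →
          Cnd K v (Kᶜ.indicator 1) (K'ᶜ.indicator 1) (node W1 G Z ph cls sub) y),
        Q K K' (node W1 G Z ph cls sub) W x := by
      intro W h1 h2 h3 x hc
      refine Q_mono h1.1 hKm hKm' h1 fun y hy => ?_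
      have hfib : ∀ z, W1.starProjection z = W1.starProjection y →
          W.starProjection z = W.starProjection x := fun z hz =>
        (KTree.proj_eq_of_le h1.1 hz).trans hy
      have hsub := h1.2.2.2.2.2.2.2.2.2.2.2
      have hci : Tree.InvN W1 cls := h1.2.2.2.2.2.2.2.1
      have hcc : y ∉ Z → ∀ z, W1.starProjection z = W1.starProjection y →
          Cnd K v (Kᶜ.indicator 1) (K'ᶜ.indicator 1) (sub (cls y)) z := by
        intro hyZ z hz
        have hzZ : z ∉ Z := fun h => hyZ ((h1.2.2.2.1.mem_iff hz).mp h)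
        have := (hc z (hfib z hz) hzZ).2.2
        rwa [hci.eq_of hz] at this
      refine Q_label hKm hKm' h1 (fun hyZ hyG => ?_) (fun hyZ hyG => ?_)
      · exact (ih (cls y)).1 W1 (hsub _) (h2.2 _) (h3.2 _) h2.1 y (hcc hyZ)
          ((hc y hy hyZ).1 hyG).2
      · obtain ⟨_, b2, b3⟩ := (hc y hy hyZ).2.1 hyG
        exact ⟨(ih (cls y)).2 W1 (hsub _) (h2.2 _) (h3.2 _) y (hcc hyZ), b2, b3⟩
    refine ⟨fun W h1 h2 h3 h4 x hc hh => ?_, hQ⟩
    refine combine_root hKm hKm' h1 hc ?_ (hQ W h1 h2 h3 x hc)
    have hs := KTree.star_kill_cut hv (by linarith) hK hKc hKR h4 (toK_valid h1) (toK_below h2) x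
      (fun y hy => toK_HK (hc y hy)) hh hp0 hp hL (fun z hz => by
        rcases rim_reg h2 h3 hz with h | h
        · exact absurd h (by simp)
        · exact h)
    rw [← hK'] at hs
    calc 8 * fib W (fun y => (node W1 G Z ph cls sub).toK.reg.indicator 1 y
            * (K \ K').indicator 1 y) x
        ≤ 8 * (ENNReal.ofReal (20000 * ‖v‖) * fib W (fun y =>
          (node W1 G Z ph cls sub).toK.reg.indicator 1 y * (K' \ K).indicator 1 y) x) := by
          gcongr
      _ = (8 * ENNReal.ofReal (20000 * ‖v‖)) * fib W (fun y =>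
          (node W1 G Z ph cls sub).toK.reg.indicator 1 y * (K' \ K).indicator 1 y) x := by ring
      _ ≤ 1 * fib W (fun y =>
          (node W1 G Z ph cls sub).toK.reg.indicator 1 y * (K' \ K).indicator 1 y) x := by
          gcongr
          rw [show (8 : ℝ≥0∞) = ENNReal.ofReal 8 by norm_num, ← ENNReal.ofReal_mul (by norm_num),
            ← ENNReal.ofReal_one]
          apply ENNReal.ofReal_le_ofReal
          linarith
      _ = _ := one_mul _

lemma fib_J {T : FT E} {W : Submodule ℝ E} (hK : MeasurableSet K) (hK' : MeasurableSet K')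
    (h : T.OK W) (x : E) : fib W (J K K' T) x =
      fib W (fun y => wt T (Kᶜ.indicator 1) y * chg K K' y) x
        + fib W (fun y => ed (fld T (Kᶜ.indicator 1) y) (fld T (K'ᶜ.indicator 1) y)) x
        + 3 * fib W (fld T (K'ᶜ.indicator 1)) x := by
  have m1 : Measurable fun y => wt T (Kᶜ.indicator 1) y * chg K K' y :=
    (measurable_wt (measurable_ci hK) h).mul (measurable_chg hK hK')
  have m3 := measurable_fld (g := K'ᶜ.indicator 1) (measurable_ci hK') h
  rw [← fib_mul (inv_const W 3) m3, ← fib_add m1, ← fib_add_right (m3.const_mul 3)]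
  rfl

/-- **STAR-F at a healthy root label.** `K' = star K v ∩ B`; the fields of `K` and `K'` are built
with the same tree of labels. -/
theorem star_f (hv : v ≠ 0) (hv' : ‖v‖ ≤ 1 / 160000) (hK : IsClosed K) (hKc : Convex ℝ K)
    (hKR : K ⊆ Metric.closedBall 0 R) (hp0 : 0 ≤ p) (hp : p ≤ 1 / 4) (hL : 1 ≤ Lam)
    (hK' : K' = star K v ∩ Metric.closedBall 0 R) {T : FT E} {W : Submodule ℝ E} (h1 : T.OK W)
    (h2 : T.Ends v W) (h3 : T.Rim K v R p Lam) (h4 : W ≤ Hp v) (x : E)
    (hc : ∀ y, W.starProjection y = W.starProjection x →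
      Cnd K v (Kᶜ.indicator 1) (K'ᶜ.indicator 1) T y)
    (hh : Hea K v (2 / 3) T.toK.frz W x) :
    fib W (fun y => wt T (Kᶜ.indicator 1) y * chg K K' y) x
        + fib W (fun y => ed (fld T (Kᶜ.indicator 1) y) (fld T (K'ᶜ.indicator 1) y)) x
        + 3 * fib W (fld T (K'ᶜ.indicator 1)) x
      ≤ 3 * fib W (fld T (Kᶜ.indicator 1)) x := by
  have hSm := measurableSet_star hK hKR hv
  have hBm : MeasurableSet (Metric.closedBall (0 : E) R) := Metric.isClosed_closedBall.measurableSet
  have hKm' : MeasurableSet K' := by rw [hK']; exact hSm.inter hBm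
  have := (main hv hv' hK hKc hKR hp0 hp hL hK' T).1 W h1 h2 h3 h4 x hc hh
  unfold P at this
  rwa [fib_J hK.measurableSet hKm' h1] at this

/-- **STAR-F integrated over the labels `W1` in the fibre of a label `W0`, with a static weight**:
the only input besides the path conditions is the (weighted) star inequality on the never good,
never killed points. -/
theorem star_f_weighted (hv : v ≠ 0) (hv' : ‖v‖ ≤ 1 / 160000) (hK : IsClosed K) (hKc : Convex ℝ K)
    (hKR : K ⊆ Metric.closedBall 0 R) (hp0 : 0 ≤ p) (hp : p ≤ 1 / 4) (hL : 1 ≤ Lam)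
    (hK' : K' = star K v ∩ Metric.closedBall 0 R) {T : FT E} {W0 W1 : Submodule ℝ E}
    (hW : W0 ≤ W1) (h1 : T.OK W1) (h2 : T.Ends v W1) (h3 : T.Rim K v R p Lam)
    {ω : E → ℝ≥0∞} (hω : Inv W1 ω) (hωm : Measurable ω) (x0 : E)
    (hc : ∀ y, W0.starProjection y = W0.starProjection x0 → ω y ≠ 0 →
      Cnd K v (Kᶜ.indicator 1) (K'ᶜ.indicator 1) T y)
    (hfin : fib W0 (fun y => (ω y * T.toK.reg.indicator 1 y) * (K' \ K).indicator 1 y) x0 ≠ ⊤)
    (hU : 8 * fib W0 (fun y => (ω y * T.toK.reg.indicator 1 y) * (K \ K').indicator 1 y) x0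
      ≤ fib W0 (fun y => (ω y * T.toK.reg.indicator 1 y) * (K' \ K).indicator 1 y) x0) :
    fib W0 (fun y => ω y * (wt T (Kᶜ.indicator 1) y * chg K K' y
        + ed (fld T (Kᶜ.indicator 1) y) (fld T (K'ᶜ.indicator 1) y)
        + 3 * fld T (K'ᶜ.indicator 1) y)) x0
      ≤ 3 * fib W0 (fun y => ω y * fld T (Kᶜ.indicator 1) y) x0 := by
  have hSm := measurableSet_star hK hKR hv
  have hBm : MeasurableSet (Metric.closedBall (0 : E) R) := Metric.isClosed_closedBall.measurableSet
  have hKm' : MeasurableSet K' := by rw [hK']; exact hSm.inter hBm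
  refine combine hW hK.measurableSet hKm' h1 hω hωm hc hfin hU fun y hy h0 => ?_
  refine (main hv hv' hK hKc hKR hp0 hp hL hK' T).2 W1 h1 h2 h3 y fun z hz => ?_
  refine hc z ((KTree.proj_eq_of_le hW hz).trans hy) ?_
  rw [hω.eq_of hz]
  exact h0

end FT

end Vale.Agent.P262.H752
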