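import Vale.Agent.P262.H752.StarF2
import Vale.Agent.P262.H713.CF1c

/-!
# P262, milestone 2: STAR-F on path arrays (change of coordinates)
-/

set_option linter.all false

open MeasureTheory ProbabilityTheory Set
open scoped ENNReal RealInnerProductSpace

namespace Vale.Agent.P262.H752

open Vale.Agent.P262.H395 Vale.Agent.P262.H59
open Vale.Agent.P262.H395.KTree (Cyl Hea HK)
open Vale.Agent.P262.H493 (star)
open Vale.Agent.P262.H654 (phi fr Bd InvR)
open Vale.Agent.P262.H847 (UI)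
open Vale.Agent.P262.H713 (im ktm kt sft ch Pa Lab LabF Wd mem_im im_mono im_span fib_im fib_im_symm
  fr_im)

variable {E : Type*} [NormedAddCommGroup E] [InnerProductSpace ℝ E] {ι : Type*}

/-! ### images under an isometry -/

lemma match_mp (R : E ≃ₗᵢ[ℝ] E) : ∀ {t : H713.FT E ι} {s : KTree E} (_ : Match t s),
    Match (H713.FT.mp R t) (ktm R s)
  | H713.FT.leaf _, KTree.leaf, _ => trivial
  | H713.FT.node W c Z cls T, KTree.node W' D Z' cls' sub, h => by
    obtain ⟨h1, h2, h3, h4⟩ := h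
    subst h1; subst h2; subst h3
    exact ⟨rfl, rfl, rfl, fun n => match_mp R (h4 n)⟩
  | H713.FT.leaf _, KTree.node _ _ _ _ _, h => h.elim
  | H713.FT.node _ _ _ _ _, KTree.leaf, h => h.elim

variable [FiniteDimensional ℝ E] [MeasurableSpace E] [BorelSpace E]

lemma kends_mp (R : E ≃ₗᵢ[ℝ] E) {v : E} : ∀ {s : KTree E} {W0 : Submodule ℝ E}
    (_ : KEnds v W0 s), KEnds (R v) (im R W0) (ktm R s)
  | KTree.leaf, W0, h => by
    have h' : W0 = Hp v := h
    show im R W0 = Hp (R v)
    rw [h']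
    exact im_span R v
  | KTree.node W D Z cls sub, W0, h => by
    refine ⟨?_, fun n => kends_mp R (h.2 n)⟩
    have := im_mono R h.1
    rwa [show im R (Hp v) = Hp (R v) from im_span R v] at this

lemma onLine_mp (R : E ≃ₗᵢ[ℝ] E) {K : Set E} {v : E} {r p Lam : ℝ} (x : E) :
    OnLine K (R v) r p Lam (R x) ↔ OnLine ((fun y => R y) ⁻¹' K) v r p Lam x := by
  unfold OnLine
  have e1 : Hp (R v) = im R (Hp v) := (im_span R v).symm
  have e2 : ‖(Hp (R v)).starProjection (R x)‖ = ‖(Hp v).starProjection x‖ := by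
    have h : (Hp (R v)).starProjection (R x) = R ((Hp v).starProjection x) := by
      have h1 : ∀ y, (Hp (R v)).starProjection y = y - ⟪R v, y⟫ • ((‖v‖ ^ 2)⁻¹ • R v) := by
        intro y
        have := Submodule.starProjection_orthogonal_val (K := ℝ ∙ (R v)) y
        unfold Hp
        rw [this, Submodule.starProjection_singleton]
        simp only [RCLike.ofReal_real_eq_id, id, LinearIsometryEquiv.norm_map]
        rw [div_eq_mul_inv, mul_smul]
      have h2 : ∀ y, (Hp v).starProjection y = y - ⟪v, y⟫ • ((‖v‖ ^ 2)⁻¹ • v) := by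
        intro y
        have := Submodule.starProjection_orthogonal_val (K := ℝ ∙ v) y
        unfold Hp
        rw [this, Submodule.starProjection_singleton]
        simp only [RCLike.ofReal_real_eq_id, id]
        rw [div_eq_mul_inv, mul_smul]
      rw [h1, h2]
      simp only [map_sub, map_smul, LinearIsometryEquiv.inner_map_map]
    rw [h, LinearIsometryEquiv.norm_map]
  rw [e2, e1, fib_im, fib_im]
  have e3 : (fun y => Kᶜ.indicator (1 : E → ℝ≥0∞) (R y))
      = ((fun y => R y) ⁻¹' K)ᶜ.indicator 1 := by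
    funext y; rfl
  have e4 : (fun y => (star K (R v) ∩ Metric.closedBall 0 r)ᶜ.indicator (1 : E → ℝ≥0∞) (R y))
      = (star ((fun y => R y) ⁻¹' K) v ∩ Metric.closedBall 0 r)ᶜ.indicator 1 := by
    have e5 : star ((fun y => R y) ⁻¹' K) v ∩ Metric.closedBall 0 r
        = (fun y => R y) ⁻¹' (star K (R v) ∩ Metric.closedBall 0 r) := by
      rw [H395.star_preimage, preimage_inter, H395.ball_preimage]
    rw [e5]
    funext y
    rfl
  rw [e3, e4]

lemma krim_mp (R : E ≃ₗᵢ[ℝ] E) {K : Set E} {v : E} {r p Lam : ℝ} : ∀ {s : KTree E}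
    (_ : KRim ((fun y => R y) ⁻¹' K) v r p Lam s), KRim K (R v) r p Lam (ktm R s)
  | KTree.leaf, _ => trivial
  | KTree.node W D Z cls sub, h => by
    refine ⟨fun hW x hZ hD => ?_, fun n => krim_mp R (h.2 n)⟩
    have hW' : W = Hp v := by
      have : im R W = im R (Hp v) := hW.trans (im_span R v).symm
      exact Submodule.map_injective_of_injective R.injective this
    have := h.1 hW' (R.symm x) hZ hD
    rw [← onLine_mp, LinearIsometryEquiv.apply_symm_apply] at this
    exact this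

lemma hea_mp (R : E ≃ₗᵢ[ℝ] E) {K : Set E} {v : E} {a : ℝ} {C : Set E} {W : Submodule ℝ E} (x : E) :
    Hea K (R v) a (R.symm ⁻¹' C) (im R W) (R x) ↔ Hea ((fun y => R y) ⁻¹' K) v a C W x := by
  unfold Hea
  rw [fib_im, fib_im]
  have e1 : (fun y => (star K (R v) ∩ R.symm ⁻¹' C).indicator (1 : E → ℝ≥0∞) (R y))
      = (star ((fun y => R y) ⁻¹' K) v ∩ C).indicator 1 := by
    funext y
    have : R y ∈ star K (R v) ∩ R.symm ⁻¹' C ↔ y ∈ star ((fun y => R y) ⁻¹' K) v ∩ C := by
      rw [H395.star_preimage]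
      simp
    by_cases h : y ∈ star ((fun y => R y) ⁻¹' K) v ∩ C
    · rw [indicator_of_mem h, indicator_of_mem (this.mpr h)]; rfl
    · rw [indicator_of_notMem h, indicator_of_notMem (fun h' => h (this.mp h'))]
  have e2 : (fun y => (K ∩ R.symm ⁻¹' C).indicator (1 : E → ℝ≥0∞) (R y))
      = ((fun y => R y) ⁻¹' K ∩ C).indicator 1 := by
    funext y
    have : R y ∈ K ∩ R.symm ⁻¹' C ↔ y ∈ (fun y => R y) ⁻¹' K ∩ C := by simp
    by_cases h : y ∈ (fun y => R y) ⁻¹' K ∩ C
    · rw [indicator_of_mem h, indicator_of_mem (this.mpr h)]; rfl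
    · rw [indicator_of_notMem h, indicator_of_notMem (fun h' => h (this.mp h'))]
  rw [e1, e2]

lemma rcnd_mp (R : E ≃ₗᵢ[ℝ] E) {K : Set E} {v : E} {g g' : ι → E → ℝ} :
    ∀ {t : H713.FT E ι} {s : KTree E} {x : E}
    (_ : RCnd ((fun y => R y) ⁻¹' K) v (fun i y => g i (R y)) (fun i y => g' i (R y)) t s x),
    RCnd K (R v) g g' (H713.FT.mp R t) (ktm R s) (R x)
  | H713.FT.leaf _, _, _, _ => trivial
  | H713.FT.node _ _ _ _ _, KTree.leaf, _, h => h.elim
  | H713.FT.node W c Z cls T, KTree.node W' D Z' cls' sub, x, h => by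
    intro hZ
    have hZ' : x ∉ Z := by
      intro h'
      exact hZ (by simpa using h')
    obtain ⟨a, b, d⟩ := h hZ'
    have ec : cls (R.symm (R x)) = cls x := by rw [LinearIsometryEquiv.symm_apply_apply]
    refine ⟨fun hD => ?_, fun hD => ?_, ?_⟩
    · have hD' : x ∈ D := by simpa using hD
      obtain ⟨a1, a2⟩ := a hD'
      show Hea K (R v) (4 / 5) (ktm R (sub 0)).frz (im R W) (R x) ∧
        Hea K (R v) (2 / 3) (ktm R (sub (cls (R.symm (R x))))).frz (im R W) (R x)
      rw [H713.frz_ktm, H713.frz_ktm, hea_mp, hea_mp, ec]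
      exact ⟨a1, a2⟩
    · have hD' : x ∉ D := fun h' => hD (by simpa using h')
      obtain ⟨b1, b2, b3⟩ := b hD'
      refine ⟨by show cls (R.symm (R x)) = 0; rw [ec]; exact b1, ?_, ?_⟩
      · rw [H713.FT.val_mp]; exact b2
      · rw [H713.FT.val_mp]; exact b3
    · show RCnd K (R v) g g' (H713.FT.mp R (T (cls (R.symm (R x)))))
        (ktm R (sub (cls (R.symm (R x))))) (R x)
      rw [ec]
      exact rcnd_mp R d

/-! ### path arrays -/

open Classical in
/-- the child `k` of `p` of the stopping tree, in the coordinates of `p` -/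
noncomputable def kc (Q : Pa E) (D Z : List ℕ → Set E) (cls : List ℕ → E → ℕ) (n : ℕ)
    (p : List ℕ) (k : ℕ) : KTree E :=
  if Q.lf p then .leaf else ktm (Q.P (k :: p)) (kt Q D Z cls n (k :: p))

variable {Q : Pa E} {c : List ℕ → E → ℝ} {D Z : List ℕ → Set E} {cls : List ℕ → E → ℕ}

lemma kt_succ' (n : ℕ) (p : List ℕ) :
    kt Q D Z cls (n + 1) p = .node (Q.W p) (D p) (Z p) (cls p) (kc Q D Z cls n p) := rfl

open scoped Classical in
lemma match_sft : ∀ (n : ℕ) (p : List ℕ), Match (sft Q c Z cls n p) (kt Q D Z cls n p)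
  | 0, _ => trivial
  | n + 1, p => by
    refine ⟨rfl, rfl, rfl, fun k => ?_⟩
    show Match (if Q.lf p then .leaf () else H713.FT.mp (Q.P (k :: p)) (sft Q c Z cls n (k :: p)))
      (if Q.lf p then .leaf else ktm (Q.P (k :: p)) (kt Q D Z cls n (k :: p)))
    by_cases h : Q.lf p
    · rw [if_pos h, if_pos h]; trivial
    · rw [if_neg h, if_neg h]; exact match_mp _ (match_sft n (k :: p))

lemma match_ch (n : ℕ) (p : List ℕ) (k : ℕ) : Match (ch Q c Z cls n p k) (kc Q D Z cls n p k) :=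
  (match_sft (D := D) (n + 1) p).2.2.2 k

/-- words and leaves -/
structure Wl (Q : Pa E) (w : List ℕ → E) (N : ℕ) : Prop extends Wd Q w where
  leaf : ∀ p, Q.lf p → Q.W p = Hp (w p)
  deep : ∀ p : List ℕ, N ≤ p.length + 1 → Q.lf p

lemma w_child {w : List ℕ → E} (hw : Wd Q w) (k : ℕ) (p : List ℕ) :
    w (k :: p) = (Q.P (k :: p)).symm (w p) := by
  rw [← hw.eq k p, LinearIsometryEquiv.symm_apply_apply]

lemma W_le_Hp {w : List ℕ → E} (hw : Wd Q w) (p : List ℕ) : Q.W p ≤ Hp (w p) := by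
  intro x hx
  unfold Hp
  rw [Submodule.mem_orthogonal_singleton_iff_inner_left]
  exact (Submodule.mem_orthogonal _ _).1 (hw.perp p) x hx

lemma kends_kc (hQ : Q.Ok) {w : List ℕ → E} {N : ℕ} (hw : Wl Q w N) : ∀ (n : ℕ) (p : List ℕ)
    (k : ℕ) (_ : N ≤ n + 1 + p.length), KEnds (w p) (Q.W p) (kc Q D Z cls n p k) := by
  intro n
  induction n with
  | zero =>
    intro p k h
    have hl := hw.deep p (by omega)
    unfold kc
    rw [if_pos hl]
    exact hw.leaf p hl
  | succ n ih =>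
    intro p k h
    unfold kc
    by_cases hl : Q.lf p
    · rw [if_pos hl]; exact hw.leaf p hl
    · rw [if_neg hl]
      have h1 : KEnds (w (k :: p)) (Q.W p) (kt Q D Z cls (n + 1) (k :: p)) :=
        ⟨W_le_Hp hw.toWd (k :: p), fun k' => ih (k :: p) k' (by rw [List.length_cons]; omega)⟩
      have h2 := kends_mp (Q.P (k :: p)) h1
      rw [hw.eq, show im (Q.P (k :: p)) (Q.W p) = Q.W p from (hQ.fix k p).map_eq] at h2
      exact h2

/-- bodies in the coordinates of the nodes -/
structure Bo (Q : Pa E) (K : List ℕ → Set E) : Prop where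
  eq : ∀ k p, K (k :: p) = (fun y => Q.P (k :: p) y) ⁻¹' K p

lemma krim_kc {w : List ℕ → E} (hw : Wd Q w) {K : List ℕ → Set E} (hK : Bo Q K) {r p Lam : ℝ}
    (hr : ∀ q, Q.W q = Hp (w q) → ∀ x, x ∉ Z q → x ∉ D q → OnLine (K q) (w q) r p Lam x) :
    ∀ (n : ℕ) (q : List ℕ) (k : ℕ), KRim (K q) (w q) r p Lam (kc Q D Z cls n q k) := by
  intro n
  induction n with
  | zero =>
    intro q k
    unfold kc
    by_cases hl : Q.lf q
    · rw [if_pos hl]; trivial
    · rw [if_neg hl]; trivial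
  | succ n ih =>
    intro q k
    unfold kc
    by_cases hl : Q.lf q
    · rw [if_pos hl]; trivial
    · rw [if_neg hl, ← hw.eq k q]
      apply krim_mp
      rw [← hK.eq k q]
      exact ⟨hr (k :: q), fun k' => ih (k :: q) k'⟩

/-- **conditions at the nodes**, in node coordinates -/
structure Nod (Q : Pa E) (c : List ℕ → E → ℝ) (D Z : List ℕ → Set E) (cls : List ℕ → E → ℕ)
    (K K' : List ℕ → Set E) (w : List ℕ → E) (N : ℕ) : Prop where
  good : ∀ n (q : List ℕ), n + 1 + q.length = N → ∀ x, x ∉ Z q → x ∈ D q →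
    Hea (K q) (w q) (4 / 5) (kc Q D Z cls n q 0).frz (Q.W q) x ∧
    Hea (K q) (w q) (2 / 3) (kc Q D Z cls n q (cls q x)).frz (Q.W q) x
  bad : ∀ n (q : List ℕ), n + 1 + q.length = N → ∀ x, x ∉ Z q → x ∉ D q → cls q x = 0 ∧
    1 / 8 ≤ H713.FT.val (Q.W q) (cls q) (ch Q c Z cls n q) (fun _ => ci (K q)) x ∧
    1 / 8 ≤ H713.FT.val (Q.W q) (cls q) (ch Q c Z cls n q) (fun _ => ci (K' q)) x

omit [FiniteDimensional ℝ E] [MeasurableSpace E] [BorelSpace E] in
lemma ci_pre (R : E ≃ₗᵢ[ℝ] E) (K : Set E) :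
    ci ((fun y => R y) ⁻¹' K) = fun y => ci K (R y) := rfl

lemma rcnd_kc {w : List ℕ → E} (hw : Wd Q w) {K K' : List ℕ → Set E} (hK : Bo Q K)
    (hK' : Bo Q K') {N : ℕ} (h : Nod Q c D Z cls K K' w N) :
    ∀ (n : ℕ) (q : List ℕ) (_ : n + 1 + q.length = N) (k : ℕ) (x : E),
    RCnd (K q) (w q) (fun _ => ci (K q)) (fun _ => ci (K' q)) (ch Q c Z cls n q k)
      (kc Q D Z cls n q k) x := by
  intro n
  induction n with
  | zero =>
    intro q hq k x
    unfold ch kc
    by_cases hl : Q.lf q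
    · rw [if_pos hl, if_pos hl]; trivial
    · rw [if_neg hl, if_neg hl]; trivial
  | succ n ih =>
    intro q hq k x
    unfold ch kc
    by_cases hl : Q.lf q
    · rw [if_pos hl, if_pos hl]; trivial
    · rw [if_neg hl, if_neg hl, ← hw.eq k q]
      have e : x = Q.P (k :: q) ((Q.P (k :: q)).symm x) :=
        ((Q.P (k :: q)).apply_symm_apply x).symm
      rw [e]
      apply rcnd_mp
      rw [← hK.eq k q]
      have hq' : n + 1 + (k :: q).length = N := by rw [List.length_cons]; omega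
      have e1 : (fun (_ : Unit) y => ci (K q) (Q.P (k :: q) y)) = fun _ => ci (K (k :: q)) := by
        rw [hK.eq k q]; rfl
      have e2 : (fun (_ : Unit) y => ci (K' q) (Q.P (k :: q) y)) = fun _ => ci (K' (k :: q)) := by
        rw [hK'.eq k q]; rfl
      rw [e1, e2]
      set z := (Q.P (k :: q)).symm x
      intro hZ
      exact ⟨h.good n (k :: q) hq' z hZ, h.bad n (k :: q) hq' z hZ, ih (k :: q) hq' _ z⟩

end Vale.Agent.P262.H752
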