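import Vale.Agent.P262.H752.StarS2
import Vale.Agent.P262.H59.StarFld
import Vale.Agent.P262.H148.Psi

/-!
# P262, milestone 2: STAR-F on `M2.Sys`, good labels
-/

set_option linter.all false

open MeasureTheory ProbabilityTheory Set
open scoped ENNReal RealInnerProductSpace

namespace Vale.Agent.P262.H752

open Vale.Agent.P262.H395 Vale.Agent.P262.H59

variable {E : Type*} [NormedAddCommGroup E] [InnerProductSpace ℝ E] [FiniteDimensional ℝ E]
  [MeasurableSpace E] [BorelSpace E]

/-- never stopped, never killed points lie on leaf lines with the rim condition -/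
lemma online_of_reg {K : Set E} {v : E} {R p Lam : ℝ} : ∀ {s : KTree E} {W0 : Submodule ℝ E}
    (_ : KEnds v W0 s) (_ : KRim K v R p Lam s) {x : E} (_ : x ∈ s.reg),
    s = KTree.leaf ∨ OnLine K v R p Lam x
  | KTree.leaf, _, _, _, _, _ => Or.inl rfl
  | KTree.node W D Z cls sub, W0, he, hr, x, hx => by
    right
    obtain ⟨hG, hZ, hx'⟩ := hx
    rcases online_of_reg (he.2 (cls x)) (hr.2 (cls x)) hx' with h | h
    · have h1 := he.2 (cls x)
      rw [h] at h1
      exact hr.1 h1 x hZ hG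
    · exact h

end Vale.Agent.P262.H752

namespace Vale.Agent.P262.M2.Sys

open Vale.Agent.P262.H395 (fib Inv)
open Vale.Agent.P262.H395.KTree (Hea)
open Vale.Agent.P262.H59 (OnLine Hp)
open Vale.Agent.P262.H752
open Vale.Agent.P262.H654 (fr InvR Bd)
open Vale.Agent.P262.H847 (UI)
open Vale.Agent.P262.H713 (FT ch)
open Vale.Agent.P262.H148 (slope Psi)

variable {E : Type*} [NormedAddCommGroup E] [InnerProductSpace ℝ E] [FiniteDimensional ℝ E]
  [MeasurableSpace E] [BorelSpace E] (S : Sys E)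

/-- the conditions on the good labels, with the masses of the fields at bad labels -/
structure StarOK (D : List ℕ → Set E) (m : ℕ) (Lam : ℝ) : Prop extends S.StopOK D m Lam where
  val : ∀ q x, x ∉ S.Z q m → x ∉ D q → 1 / 8 ≤ S.Fr q m x ∧ 1 / 8 ≤ S.Fr q (m + 1) x

lemma bo_X (m : ℕ) : Bo (S.pa m) fun p => S.X p m := ⟨fun k p => S.X_cons_f k p m⟩

lemma bo_X' {m : ℕ} (h : S.mv.IsStar m) : Bo (S.pa m) fun p => S.X p (m + 1) := by
  have e : S.pa (m + 1) = S.pa m := S.paX_succ h
  rw [← e]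
  exact S.bo_X (m + 1)

lemma wl_X {m : ℕ} (h : S.mv.IsStar m) (hm : m < S.mT) :
    Wl (S.pa m) (S.wX m) (Module.finrank ℝ E) where
  toWd := S.wd_X h hm
  leaf := (S.endOK_X h hm).leaf
  deep := fun p hp => S.leaf_of_length_f hm.le (by omega)

variable {S} {D : List ℕ → Set E} {m : ℕ} {Lam : ℝ}

lemma hea_mono {K : Set E} {v : E} {a b : ℝ} (hab : a ≤ b) {C : Set E} {W : Submodule ℝ E} {x : E}
    (h : Hea K v b C W x) : Hea K v a C W x := by
  rcases h with h | h
  · exact Or.inl ((ENNReal.ofReal_le_ofReal hab).trans h)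
  · exact Or.inr ((ENNReal.ofReal_le_ofReal hab).trans h)

lemma nod_s (hD : S.StarOK D m Lam) (h : S.mv.IsStar m) (hm : m < S.mT) :
    Nod (S.pa m) (S.cf m) D (fun p => S.Z p m) (fun p => S.kl p m) (fun p => S.X p m)
      (fun p => S.X p (m + 1)) (S.wX m) (Module.finrank ℝ E) where
  good := fun n q hn x hZ hx => ⟨hD.good n q hn x hZ hx 0 (Or.inl rfl),
    hea_mono (by norm_num) (hD.good n q hn x hZ hx _ (Or.inr rfl))⟩
  bad := fun n q hn x hZ hx => by
    have e : ch (S.pa m) (S.cf m) (fun p => S.Z p m) (fun p => S.kl p m) n q = S.tC q m :=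
      funext fun k => S.tCn_eq hm.le (by omega) (by omega) k
    have hv := hD.val q x hZ hx
    refine ⟨hD.bad q x hZ hx, ?_, ?_⟩
    · rw [e]
      exact hv.1
    · rw [e]
      have h2 : S.Fr q (m + 1) x = FT.val ((S.pa m).W q) (S.kl q m) (S.tC q m)
          (fun _ => ci (S.X q (m + 1))) x := by
        unfold Fr FT.val
        rw [S.W_succ_active (Or.inl h)]
        congr 1
        funext y
        exact S.fld_succ_star h hm q y
      rw [← h2]
      exact hv.2

/-- **STAR-F at a good label** -/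
theorem starf_label (hLam : 1 ≤ Lam) (hδ : S.δ ≤ 1 / 160000) (hD : S.StarOK D m Lam)
    (h : S.mv.IsStar m) (hm : m < S.mT) {p : List ℕ} (hp : p.length + 1 ≤ Module.finrank ℝ E)
    {x : E} (hZ : x ∉ S.Z p m) (hx : x ∈ D p) :
    S.Gst p m x + 18 * S.F p (m + 1) x ≤ 18 * S.F p m x := by
  have hL := S.labOK hm.le
  have hL' := S.labOK (m := m + 1) hm
  obtain ⟨n, hn⟩ : ∃ n, n + 1 + p.length = Module.finrank ℝ E :=
    ⟨Module.finrank ℝ E - 1 - p.length, by omega⟩
  have hwl := S.wl_X h hm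
  have hd := S.norm_wX hm p
  have hne := S.wX_ne hm p
  have hnod := nod_s hD h hm
  set k := S.kl p m x with hk
  have et : ch (S.pa m) (S.cf m) (fun p => S.Z p m) (fun p => S.kl p m) n p k = S.tC p m k :=
    S.tCn_eq hm.le (by omega) (by omega) k
  have hW : S.W p m ≤ Hp (S.wX m p) := W_le_Hp hwl.toWd p
  have hval : (S.kK D m n p k).Valid (S.W p m) :=
    (H713.valid_kt (S.pa_ok m) hD.lab (n + 1) p (S.W p m) le_rfl).2.2.2.2.2.2.2.2 k
  have key := star_fr (K := S.X p m) (K' := S.X p (m + 1)) (v := S.wX m p) (R := S.R) (p := 1 / 8)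
    (Lam := Lam) (c0 := S.cc) (W := S.W p m) (t := S.tC p m k) (s := S.kK D m n p k) hne
    (by rw [hd]; exact hδ) (S.isClosed_X p m) (S.convex_X p m) (S.X_subset_ball p m) (by norm_num)
    (by norm_num) hLam (S.X_star h hm p) S.cc_le' (by rw [← et]; exact match_ch n p k)
    hL.good_tC hval (kends_kc (S.pa_ok m) hwl n p k (by omega))
    (krim_kc hwl.toWd (S.bo_X m) hD.rim n p k) hW x
    (fun y _ => by
      rw [← et]
      exact rcnd_kc hwl.toWd (S.bo_X m) (S.bo_X' h) hnod n p hn k y)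
    (hea_mono (by norm_num) (hD.good n p hn x hZ hx k (Or.inr rfl)))
  have hKm := S.measurableSet_X p m
  have hKm' := S.measurableSet_X p (m + 1)
  -- in terms of the field
  have u := hL.fld_UI (p := p)
  have u' := hL'.fld_UI (p := p)
  have w := hL.wtf_UI p
  have cu : UI (chR (S.X p m) (S.X p (m + 1))) := chR_UI hKm hKm'
  have e1 : fr (S.W p m) (fun y => FT.wt (S.tC p m k) (fun _ => ci (S.X p m)) y *
      chR (S.X p m) (S.X p (m + 1)) y) x = fr (S.W p m) (fun y => S.wtf p m y *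
      chR (S.X p m) (S.X p (m + 1)) y) x := by
    refine H713.fr_congr fun y hy => ?_
    unfold wtf
    rw [hL.kl_eq hy]
    rfl
  have e2 : fr (S.W p m) (fun y => |FT.fl (S.tC p m k) (fun _ => ci (S.X p m)) y -
      FT.fl (S.tC p m k) (fun _ => ci (S.X p (m + 1))) y|) x =
      fr (S.W p m) (fun y => |S.fld p m y - S.fld p (m + 1) y|) x := by
    refine H713.fr_congr fun y hy => ?_
    rw [S.fld_succ_star h hm, hL.kl_eq hy, hL.fld_fibre hy]
    rfl
  have e3 : fr (S.W p m) (FT.fl (S.tC p m k) fun _ => ci (S.X p m)) x = S.Fr p m x := by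
    rw [hL.Fr_eq]; rfl
  have e4 : fr (S.W p m) (FT.fl (S.tC p m k) fun _ => ci (S.X p (m + 1))) x = S.Fr p (m + 1) x := by
    unfold Fr
    rw [S.W_succ_active (Or.inl h)]
    refine H713.fr_congr fun y hy => ?_
    rw [S.fld_succ_star h hm, hL.kl_eq hy]
    rfl
  rw [e1, e2, e3, e4] at key
  have hd2 := H752.UI.dist u u'
  have hm2 := H752.UI.mul w cu
  have eG : S.Gst p m x = 6 * (ENNReal.ofReal (fr (S.W p m) (fun y => S.wtf p m y *
      chR (S.X p m) (S.X p (m + 1)) y) x) +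
      ENNReal.ofReal (fr (S.W p m) (fun y => |S.fld p m y - S.fld p (m + 1) y|) x)) := by
    unfold Gst gst
    rw [H395.fib_add (hm2.meas.ennreal_ofReal), fib_ofReal hm2, fib_ofReal hd2]
  have n1 := (H654.UI.fr hm2 (S.W p m)).nonneg x
  have n2 := (H654.UI.fr hd2 (S.W p m)).nonneg x
  have n3 : 0 ≤ S.Fr p m x := hL.Fr_UI.nonneg x
  have n4 : 0 ≤ S.Fr p (m + 1) x := hL'.Fr_UI.nonneg x
  rw [eG, hL.F_eq, hL'.F_eq, ← ENNReal.ofReal_add n1 n2,
    show (6 : ℝ≥0∞) = ENNReal.ofReal 6 by norm_num,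
    show (18 : ℝ≥0∞) = ENNReal.ofReal 18 by norm_num, ← ENNReal.ofReal_mul (by norm_num),
    ← ENNReal.ofReal_mul (by norm_num), ← ENNReal.ofReal_mul (by norm_num), ← ENNReal.ofReal_add
    (by positivity) (by positivity)]
  exact ENNReal.ofReal_le_ofReal (by linarith)

end Vale.Agent.P262.M2.Sys
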