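import Vale.Agent.P262.H752.StarS3
import Vale.Agent.P262.H654.CapS

/-!
# P262, milestone 2: STAR-F on `M2.Sys`, the set of good labels
-/

set_option linter.all false

open MeasureTheory ProbabilityTheory Set
open scoped ENNReal RealInnerProductSpace

namespace Vale.Agent.P262.H752

open Vale.Agent.P262.H395 Vale.Agent.P262.H59
open Vale.Agent.P262.H395.KTree (Cyl Hea)
open Vale.Agent.P262.H493 (star)
open Vale.Agent.P262.H713 (FT Pa sft ch kt ktm frp mem_frz_kt mem_frz_ktm frz_ktm)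

variable {E : Type*} [NormedAddCommGroup E] [InnerProductSpace ℝ E] [FiniteDimensional ℝ E]
  [MeasurableSpace E] [BorelSpace E] {Q : Pa E} {c : List ℕ → E → ℝ} {D Z : List ℕ → Set E}
  {cls : List ℕ → E → ℕ}

open Classical in
/-- alive along the chain of class `0` -/
lemma al_sft0 : ∀ (n : ℕ) (p : List ℕ) (x : E),
    FT.al (sft Q c Z (fun _ _ => 0) n p) x = if frp Q Z n p x then 1 else 0 := by
  intro n
  induction n with
  | zero => intro p x; simp [sft, frp]
  | succ n ih =>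
    intro p x
    rw [H713.sft_succ', FT.al_node, H713.al_ch, ih]
    have e : frp Q Z (n + 1) p x ↔ x ∉ Z p ∧ (Q.lf p ∨ frp Q Z n (0 :: p) ((Q.P (0 :: p)).symm x)) :=
      Iff.rfl
    simp only [e]
    by_cases h1 : x ∈ Z p
    · rw [if_pos h1, if_neg (fun h => h.1 h1)]
    · rw [if_neg h1]
      by_cases h2 : Q.lf p
      · rw [if_pos h2, if_pos ⟨h1, Or.inl h2⟩]
      · rw [if_neg h2]
        by_cases h3 : frp Q Z n (0 :: p) ((Q.P (0 :: p)).symm x)
        · rw [if_pos h3, if_pos ⟨h1, Or.inr h3⟩]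
        · rw [if_neg h3, if_neg (fun h => h.2.elim h2 h3)]

lemma mem_frz_kc (n : ℕ) (q : List ℕ) (k : ℕ) (y : E) :
    y ∈ (kc Q D Z cls n q k).frz ↔ Q.lf q ∨ frp Q Z n (k :: q) ((Q.P (k :: q)).symm y) := by
  unfold kc
  by_cases h : Q.lf q
  · rw [if_pos h]
    exact ⟨fun _ => Or.inl h, fun _ => mem_univ y⟩
  · rw [if_neg h, frz_ktm, mem_preimage, mem_frz_kt]
    exact ⟨Or.inr, fun h' => h'.resolve_left h⟩

lemma frz_kc_congr {D' : List ℕ → Set E} {cls' : List ℕ → E → ℕ} (n : ℕ) (q : List ℕ) (k : ℕ) :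
    (kc Q D Z cls n q k).frz = (kc Q D' Z cls' n q k).frz := by
  ext y
  rw [mem_frz_kc, mem_frz_kc]

open Classical in
lemma al_ch0 (n : ℕ) (q : List ℕ) (k : ℕ) (y : E) :
    FT.al (ch Q c Z (fun _ _ => 0) n q k) y = if y ∈ (kc Q D Z cls n q k).frz then 1 else 0 := by
  rw [H713.al_ch, al_sft0]
  by_cases h : Q.lf q
  · rw [if_pos h, if_pos ((mem_frz_kc n q k y).mpr (Or.inl h))]
  · rw [if_neg h]
    by_cases h' : frp Q Z n (k :: q) ((Q.P (k :: q)).symm y)
    · rw [if_pos h', if_pos ((mem_frz_kc n q k y).mpr (Or.inr h'))]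
    · rw [if_neg h', if_neg fun hh => ((mem_frz_kc n q k y).mp hh).elim h h']

/-- one is the mass of a part, of the complement of the body and of the killed points -/
lemma one_le_three {A C : Set E} (hA : MeasurableSet A) (hC : MeasurableSet C) (W : Submodule ℝ E)
    (x : E) : 1 ≤ fib W ((A ∩ C).indicator 1) x + fib W (Aᶜ.indicator 1) x +
      fib W (Cᶜ.indicator 1) x := by
  have m1 : Measurable ((A ∩ C).indicator (1 : E → ℝ≥0∞)) := measurable_one.indicator (hA.inter hC)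
  have m2 : Measurable (Aᶜ.indicator (1 : E → ℝ≥0∞)) := measurable_one.indicator hA.compl
  have m3 : Measurable (fun y => (A ∩ C).indicator (1 : E → ℝ≥0∞) y + Aᶜ.indicator 1 y) :=
    m1.add m2
  rw [← fib_add m1, ← fib_add m3]
  calc (1 : ℝ≥0∞) = fib W (fun _ => 1) x := (fib_const W 1 x).symm
    _ ≤ _ := fib_mono (fun y => ?_) x
  by_cases h1 : y ∈ A <;> by_cases h2 : y ∈ C <;> simp [h1, h2]

/-- not healthy: large deficits of the body and of the star body -/
lemma big_of_not_hea {K : Set E} (hK : MeasurableSet K) {v : E} (hS : MeasurableSet (star K v))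
    {C : Set E} (hC : MeasurableSet C) {W : Submodule ℝ E} {x : E} {e : ℝ}
    (he : fib W (Cᶜ.indicator 1) x ≤ ENNReal.ofReal e) (he0 : 0 ≤ e) (he1 : e ≤ 1 / 5)
    (h : ¬ Hea K v (4 / 5) C W x) :
    ENNReal.ofReal (1 / 5 - e) ≤ fib W (Kᶜ.indicator 1) x ∧
      ENNReal.ofReal (1 / 5 - e) ≤ fib W ((star K v)ᶜ.indicator 1) x := by
  unfold KTree.Hea at h
  rw [not_or, not_le, not_le] at h
  have key : ∀ A : Set E, MeasurableSet A → fib W ((A ∩ C).indicator 1) x < ENNReal.ofReal (4 / 5) →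
      ENNReal.ofReal (1 / 5 - e) ≤ fib W (Aᶜ.indicator 1) x := by
    intro A hA h1
    have h2 := one_le_three hA hC W x
    by_contra hcon
    rw [not_le] at hcon
    have h3 : fib W ((A ∩ C).indicator 1) x + fib W (Aᶜ.indicator 1) x +
        fib W (Cᶜ.indicator 1) x < ENNReal.ofReal (4 / 5) + ENNReal.ofReal (1 / 5 - e) +
        ENNReal.ofReal e :=
      ENNReal.add_lt_add_of_lt_of_le (by
        refine ne_top_of_le_ne_top ENNReal.ofReal_ne_top he) (ENNReal.add_lt_add h1 hcon) he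
    rw [← ENNReal.ofReal_add (by norm_num) (by linarith),
      ← ENNReal.ofReal_add (by linarith) he0] at h3
    have h4 : (4 / 5 + (1 / 5 - e) + e : ℝ) = 1 := by ring
    rw [h4, ENNReal.ofReal_one] at h3
    exact absurd h2 (not_le.mpr h3)
  exact ⟨key K hK h.2, key _ hS h.1⟩

lemma measurableSet_hea {K : Set E} (hK : MeasurableSet K) {v : E} (hS : MeasurableSet (star K v))
    {C : Set E} (hC : MeasurableSet C) {W : Submodule ℝ E} {a : ℝ} :
    MeasurableSet {x | Hea K v a C W x} :=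
  (measurableSet_le measurable_const (measurable_fib (measurable_one.indicator (hS.inter hC)))).union
    (measurableSet_le measurable_const (measurable_fib (measurable_one.indicator (hK.inter hC))))

lemma hea_inv {K : Set E} {v : E} {C : Set E} {W : Submodule ℝ E} {a : ℝ} {x w : E}
    (hw : w ∈ Wᗮ) : Hea K v a C W (x + w) ↔ Hea K v a C W x := by
  unfold KTree.Hea
  rw [inv_fib W _ x w hw, inv_fib W _ x w hw]

end Vale.Agent.P262.H752

namespace Vale.Agent.P262.M2.Sys

open Vale.Agent.P262.H395 (fib Inv)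
open Vale.Agent.P262.H395.KTree (Hea Cyl)
open Vale.Agent.P262.H59 (OnLine Hp measurableSet_star)
open Vale.Agent.P262.H493 (star)
open Vale.Agent.P262.H752
open Vale.Agent.P262.H654 (fr InvR Bd)
open Vale.Agent.P262.H847 (UI)
open Vale.Agent.P262.H713 (FT ch)

variable {E : Type*} [NormedAddCommGroup E] [InnerProductSpace ℝ E] [FiniteDimensional ℝ E]
  [MeasurableSpace E] [BorelSpace E] (S : Sys E)

/-- numerical hypotheses of the star move -/
structure StarC (S : Sys E) : Prop where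
  qq : 2 * (Real.sqrt 2 * Real.exp (-(S.qq / 4))) ≤ 1 / 41
  kp : S.kp 1 ≤ 1 / 4
  δ : S.δ ≤ 1 / 160000

/-- **the good labels** of the star move `m` -/
def DX (m : ℕ) (q : List ℕ) : Set E :=
  {x | ∀ k, k = 0 ∨ k = S.kl q m x → Hea (S.X q m) (S.wX m q) (4 / 5)
    (S.kK (fun _ => ∅) m (Module.finrank ℝ E - 1 - q.length) q k).frz (S.W q m) x}

variable {S} {D : List ℕ → Set E} {m : ℕ} {Lam : ℝ}

lemma frz_kK {D' : List ℕ → Set E} (n : ℕ) (q : List ℕ) (k : ℕ) :
    (S.kK D m n q k).frz = (S.kK D' m n q k).frz := frz_kc_congr n q k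

lemma lab_Z (m : ℕ) (hm : S.mv.tm m < S.T) :
    H713.Lab (S.pa m) (fun _ => ∅) (fun p => S.Z p m) (fun p => S.kl p m) where
  mD := fun _ => MeasurableSet.empty
  cD := fun _ x w _ => by simp
  cZ := fun p => S.Z_inv p m
  clZ := fun p => S.isClosed_Z_compl p m
  coZ := fun p => S.convex_Z_compl p m
  mc := fun p => measurable_kl p m
  ic := fun p => kl_inv p hm

lemma measurableSet_frz (hm : S.mv.tm m < S.T) (n : ℕ) (q : List ℕ) (k : ℕ) :
    MeasurableSet (S.kK D m n q k).frz := by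
  rw [frz_kK (D' := fun _ => ∅)]
  exact (H395.KTree.isClosed_frz
    ((H713.valid_kt (S.pa_ok m) (lab_Z m hm) (n + 1) q (S.W q m) le_rfl).2.2.2.2.2.2.2.2 k)).measurableSet

open Classical in
/-- **killed mass of the fixed chains** -/
theorem fib_frz (hC : S.StarC) (hm : m ≤ S.mT) {q : List ℕ} {x : E} (hx : x ∉ S.Z q m)
    (n k : ℕ) : fib (S.W q m) ((S.kK D m n q k).frzᶜ.indicator 1) x ≤
      ENNReal.ofReal (1 / 64) := by
  have ht := S.tm_lt_f hm
  have hε : 2 * (Real.sqrt 2 * Real.exp (-(S.qq / 4))) ≤ 1 / 2 := hC.qq.trans (by norm_num)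
  by_cases hl : S.Leaf q m
  · have e : (S.kK D m n q k).frzᶜ = ∅ := by
      rw [compl_empty_iff, eq_univ_iff_forall]
      intro y
      exact (mem_frz_kc n q k y).mpr (Or.inl hl)
    rw [e, indicator_empty]
    have : fib (S.W q m) (fun _ => (0 : ℝ≥0∞)) x = 0 := H395.fib_const _ 0 x
    rw [this]
    exact bot_le
  have hLF : H713.LabF (S.pa m) S.cc (S.cf m) (fun p => S.Z p m) (fun _ _ => 0) := by
    refine ⟨fun p => ?_⟩
    have h := (S.labOK hm).ok p
    exact ⟨h.meas, h.inv, h.measZ, h.invZ, h.nonneg, h.le, measurable_const, fun _ _ _ => rfl⟩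
  have hg : FT.Good S.cc (ch (S.pa m) (S.cf m) (fun p => S.Z p m) (fun _ _ => 0) n q k) :=
    H713.good_ch (S.pa_ok m) hLF n q k
  have h := CF2.killed_first (κ := S.kp (S.kdm (k :: q) m)) (k := S.kp 1)
    (kp_nonneg _) (kp_nonneg 1) (hC.kp.trans (by norm_num)) hg
    (H713.above_ch (S.pa_ok m) hLF n q k) (CF2.cpI_ch (S.pa_ok m) (capF hε ht) n q k)
    (CF2.cf_ch (S.pa_ok m) (fun h => fr_cap_child hε k ht h hx)
      (fun h => fr_kil_child hε k ht h hx) n) (S.cf_nonneg m q x)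
  have hu := FT.al_UI hg
  have e : (fun y => (S.kK D m n q k).frzᶜ.indicator (1 : E → ℝ≥0∞) y) = fun y =>
      ENNReal.ofReal (1 - FT.al (ch (S.pa m) (S.cf m) (fun p => S.Z p m) (fun _ _ => 0) n q k) y) := by
    funext y
    have e1 : FT.al (ch (S.pa m) (S.cf m) (fun p => S.Z p m) (fun _ _ => 0) n q k) y =
        if y ∈ (S.kK D m n q k).frz then 1 else 0 := al_ch0 n q k y
    rw [e1]
    by_cases hy : y ∈ (S.kK D m n q k).frz
    · rw [indicator_of_notMem (not_not.mpr hy), if_pos hy]; simp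
    · rw [indicator_of_mem (show y ∈ (S.kK D m n q k).frzᶜ from hy), if_neg hy]; simp
  have bd : Bd fun y => 1 - FT.al (ch (S.pa m) (S.cf m) (fun p => S.Z p m) (fun _ _ => 0) n q k) y :=
    (Bd.const 1).sub (Bd.of_UI hu)
  show fib (S.W q m) (fun y => (S.kK D m n q k).frzᶜ.indicator (1 : E → ℝ≥0∞) y) x ≤ _
  rw [e, ← H654.ofReal_fr bd (fun y => by linarith [hu.le_one y])]
  refine ENNReal.ofReal_le_ofReal (h.trans ?_)
  have h1 : S.kp (S.kdm (k :: q) m) ≤ 1 / 4 := (kp_anti (one_le_kdm k ht hl)).trans hC.kp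
  have h2 : S.cf m q x ≤ 1 / 32 := (S.cf_le hx).trans S.cc_le
  have h3 := S.cf_nonneg m q x
  have h4 := kp_nonneg (S := S) (S.kdm (k :: q) m)
  nlinarith

end Vale.Agent.P262.M2.Sys
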