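import Vale.Agent.P262.H752.StarS4

/-!
# P262, milestone 2: STAR-F on `M2.Sys`, the good labels satisfy the conditions
-/

set_option linter.all false

open MeasureTheory ProbabilityTheory Set
open scoped ENNReal RealInnerProductSpace

namespace Vale.Agent.P262.M2.Sys

open Vale.Agent.P262.H395 (fib Inv)
open Vale.Agent.P262.H395.KTree (Hea Cyl)
open Vale.Agent.P262.H59 (OnLine Hp measurableSet_star)
open Vale.Agent.P262.H493 (star)
open Vale.Agent.P262.H752
open Vale.Agent.P262.H654 (fr InvR Bd)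
open Vale.Agent.P262.H847 (UI)
open Vale.Agent.P262.H713 (FT ch)

variable {E : Type*} [NormedAddCommGroup E] [InnerProductSpace ℝ E] [FiniteDimensional ℝ E]
  [MeasurableSpace E] [BorelSpace E] {S : Sys E} {D : List ℕ → Set E} {m : ℕ} {Lam : ℝ}

/-- the mass of the field is close to the deficit -/
theorem Fr_ge (hC : S.StarC) (hm : m ≤ S.mT) {q : List ℕ} {x : E} (hx : x ∉ S.Z q m) {a : ℝ}
    (h : ENNReal.ofReal a ≤ S.De q m x) : a - 1 / 32 ≤ S.Fr q m x := by
  have hL := S.labOK hm
  have ht := S.tm_lt_f hm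
  have hε : 2 * (Real.sqrt 2 * Real.exp (-(S.qq / 4))) ≤ 1 / 2 := hC.qq.trans (by norm_num)
  have u := hL.fld_UI (p := q)
  have v := S.pf_UI q m
  have h0 : a ≤ fr (S.W q m) (S.pf q m) x := by
    have h1 := S.ofReal_fr_pf (S.W q m) q m x
    have h2 : ENNReal.ofReal a ≤ ENNReal.ofReal (fr (S.W q m) (S.pf q m) x) := by
      rw [h1]; exact h
    exact (ENNReal.ofReal_le_ofReal_iff ((H654.UI.fr v _).nonneg x)).1 h2
  have h3 : fr (S.W q m) (fun y => |S.pf q m y - S.fld q m y|) x ≤ 1 / 32 := by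
    by_cases hl : S.Leaf q m
    · have e : (fun y => |S.pf q m y - S.fld q m y|) = fun _ => (0:ℝ) := by
        funext y
        rw [fld_leaf hL hm hl]
        simp
      rw [e, H654.fr_const]
      norm_num
    · have h1 := fr_close hε (hC.kp.trans (by norm_num)) hm hx
      have h2 : S.kp (S.kdm (S.kl q m x :: q) m) ≤ 1 / 4 :=
        (kp_anti (one_le_kdm _ ht hl)).trans hC.kp
      have h3 : S.cf m q x ≤ 1 / 32 := (S.cf_le hx).trans S.cc_le
      have h4 := S.cf_nonneg m q x
      have h5 := kp_nonneg (S := S) (S.kdm (S.kl q m x :: q) m)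
      nlinarith
  have h4 : fr (S.W q m) (S.pf q m) x ≤ fr (S.W q m) (fun y => S.fld q m y +
      |S.pf q m y - S.fld q m y|) x := by
    refine H654.fr_mono (Bd.of_UI v) ((Bd.of_UI u).add ((Bd.of_UI v).sub (Bd.of_UI u)).abs)
      (fun y => ?_) x
    linarith [le_abs_self (S.pf q m y - S.fld q m y)]
  rw [H654.fr_add (Bd.of_UI u) ((Bd.of_UI v).sub (Bd.of_UI u)).abs] at h4
  unfold Fr
  linarith

/-- bad labels have large deficits at both states -/
theorem De_big (hC : S.StarC) (h : S.mv.IsStar m) (hm : m < S.mT) {q : List ℕ} {x : E}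
    (hx : x ∉ S.Z q m) (hb : x ∉ S.DX m q) :
    ENNReal.ofReal (1 / 5 - 1 / 64) ≤ S.De q m x ∧
      ENNReal.ofReal (1 / 5 - 1 / 64) ≤ S.De q (m + 1) x := by
  have ht := S.tm_lt_X hm
  have hne := S.wX_ne hm q
  have hSm := measurableSet_star (S.isClosed_X q m) (S.X_subset_ball q m) hne
  unfold DX at hb
  rw [mem_setOf_eq] at hb
  push Not at hb
  obtain ⟨k, _, hk⟩ := hb
  have h1 := big_of_not_hea (S.measurableSet_X q m) hSm
    (measurableSet_frz (D := fun _ => ∅) ht _ q k) (W := S.W q m) (x := x) (e := 1 / 64)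
    (fib_frz hC hm.le hx _ k) (by norm_num) (by norm_num) hk
  refine ⟨h1.1, h1.2.trans ?_⟩
  unfold De
  rw [S.W_succ_active (Or.inl h)]
  refine H395.fib_mono (fun y => ?_) x
  refine indicator_le_indicator_of_subset ?_ (fun _ => bot_le) y
  rw [S.X_star h hm]
  exact compl_subset_compl.mpr inter_subset_left

lemma DX_eq (m : ℕ) (q : List ℕ) : S.DX m q =
    {x | Hea (S.X q m) (S.wX m q) (4 / 5)
      (S.kK (fun _ => ∅) m (Module.finrank ℝ E - 1 - q.length) q 0).frz (S.W q m) x} ∩
    ⋃ k, (S.kl q m ⁻¹' {k} ∩ {x | Hea (S.X q m) (S.wX m q) (4 / 5)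
      (S.kK (fun _ => ∅) m (Module.finrank ℝ E - 1 - q.length) q k).frz (S.W q m) x}) := by
  ext x
  unfold DX
  simp only [mem_setOf_eq, mem_inter_iff, mem_iUnion, mem_preimage, mem_singleton_iff]
  constructor
  · intro h
    exact ⟨h 0 (Or.inl rfl), _, rfl, h _ (Or.inr rfl)⟩
  · rintro ⟨h1, k, rfl, h2⟩ k' (rfl | rfl)
    · exact h1
    · exact h2

/-- **the set `DX` of good labels is admissible** -/
theorem starOK (hC : S.StarC) (hR : S.RimC Lam) (h : S.mv.IsStar m) (hm : m < S.mT) :
    S.StarOK (S.DX m) m Lam := by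
  have ht := S.tm_lt_X hm
  have hbad : ∀ q x, x ∉ S.Z q m → x ∉ S.DX m q → S.kl q m x = 0 := by
    intro q x hx hb
    rw [kl_eq_zero_iff hx, thr_zero_c]
    refine le_trans ?_ (De_le_Dw_c (In.self_c (zero_B_c (S := S) q 0) ht) x)
    exact (ENNReal.ofReal_le_ofReal (by norm_num)).trans (De_big hC h hm hx hb).1
  refine
  { lab :=
    { mD := fun q => ?_
      cD := fun q => ?_
      cZ := fun p => S.Z_inv p m
      clZ := fun p => S.isClosed_Z_compl p m
      coZ := fun p => S.convex_Z_compl p m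
      mc := fun p => measurable_kl p m
      ic := fun p => kl_inv p ht }
    good := ?_
    bad := hbad
    rim := ?_
    val := ?_ }
  · rw [DX_eq]
    have hKm := S.measurableSet_X q m
    have hSm := measurableSet_star (S.isClosed_X q m) (S.X_subset_ball q m) (S.wX_ne hm q)
    have hH : ∀ k, MeasurableSet {x | Hea (S.X q m) (S.wX m q) (4 / 5)
        (S.kK (fun _ => ∅) m (Module.finrank ℝ E - 1 - q.length) q k).frz (S.W q m) x} := fun k =>
      measurableSet_hea hKm hSm (measurableSet_frz ht _ q k)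
    exact (hH 0).inter (MeasurableSet.iUnion fun k =>
      (measurable_kl q m (measurableSet_singleton k)).inter (hH k))
  · intro x w hw
    unfold DX
    rw [mem_setOf_eq, mem_setOf_eq, kl_inv q ht x w hw]
    refine forall_congr' fun k => imp_congr_right fun _ => ?_
    exact hea_inv hw
  · intro n q hn x hZ hx k hk
    have e : n = Module.finrank ℝ E - 1 - q.length := by omega
    rw [frz_kK (D' := fun _ => ∅), e]
    exact hx k hk
  · intro q hq x hx hb
    unfold H59.OnLine
    refine le_trans ?_ (le_max_left _ _)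
    refine (S.rim_X hR hm q hq hx).trans ((S.A_le_of_not_Z hx).trans ?_)
    rw [← hq]
    refine le_trans (ENNReal.ofReal_le_ofReal ?_) (De_big hC h hm hx hb).1
    have := b0_c (S := S)
    linarith
  · intro q x hx hb
    have h1 := De_big hC h hm hx hb
    have h2 := Fr_ge hC hm.le hx h1.1
    have hx' : x ∉ S.Z q (m + 1) := by rw [S.Z_succ_X (Or.inl h) hm]; exact hx
    have h3 := Fr_ge hC (m := m + 1) hm hx' h1.2
    constructor <;> linarith

/-- labels with a small deficit are good -/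
theorem good_of_De (hC : S.StarC) (hm : m < S.mT) {q : List ℕ} {x : E} (hx : x ∉ S.Z q m)
    (h : S.De q m x ≤ ENNReal.ofReal (1 / 10)) : x ∈ S.DX m q := by
  intro k _
  right
  have ht := S.tm_lt_X hm
  have h1 := one_le_three (S.measurableSet_X q m)
    (measurableSet_frz (S := S) (D := fun _ => ∅) ht (Module.finrank ℝ E - 1 - q.length) q k)
    (S.W q m) x
  have h2 := fib_frz (D := fun _ => ∅) hC hm.le hx (Module.finrank ℝ E - 1 - q.length) k
  by_contra hcon
  rw [not_le] at hcon
  have h3 : fib (S.W q m) ((S.X q m ∩ (S.kK (fun _ => ∅) m (Module.finrank ℝ E - 1 - q.length)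
      q k).frz).indicator 1) x + fib (S.W q m) ((S.X q m)ᶜ.indicator 1) x +
      fib (S.W q m) ((S.kK (fun _ => ∅) m (Module.finrank ℝ E - 1 - q.length) q k).frzᶜ.indicator
        1) x < ENNReal.ofReal (4 / 5) + ENNReal.ofReal (1 / 10) + ENNReal.ofReal (1 / 64) := by
    refine ENNReal.add_lt_add_of_lt_of_le (ne_top_of_le_ne_top ENNReal.ofReal_ne_top h2)
      (ENNReal.add_lt_add_of_lt_of_le (ne_top_of_le_ne_top ENNReal.ofReal_ne_top h) hcon h) h2
  rw [← ENNReal.ofReal_add (by norm_num) (by norm_num),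
    ← ENNReal.ofReal_add (by norm_num) (by norm_num)] at h3
  refine absurd h1 (not_le.mpr (h3.trans_le ?_))
  rw [ENNReal.ofReal_le_one]
  norm_num

/-- the root is good in a healthy state -/
theorem root_good (hC : S.StarC) (hm : m < S.mT) (hH : S.Healthy m) (x : E) : x ∈ S.DX m [] := by
  refine good_of_De hC hm (by rw [S.Z_nil]; exact notMem_empty x) ?_
  have h1 : x ∈ (S.W [] m)ᗮ := by
    rw [W_nil_c, Submodule.bot_orthogonal_eq_top]; exact Submodule.mem_top
  have h2 := inv_De_c (S := S) [] m 0 x h1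
  rw [zero_add] at h2
  rw [h2]
  exact (show S.De [] m 0 ≤ _ from hH).trans (ENNReal.ofReal_le_ofReal (by norm_num))

end Vale.Agent.P262.M2.Sys
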