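import Vale.Agent.P262.H752.StarS5

/-!
# P262, milestone 2: STAR-F on `M2.Sys`, the chains of bad labels
-/

set_option linter.all false

open MeasureTheory ProbabilityTheory Set
open scoped ENNReal RealInnerProductSpace

namespace Vale.Agent.P262.M2.Sys

open Vale.Agent.P262.H395 (fib Inv fib_mul fib_mono lintegral_fib measurable_fib)
open Vale.Agent.P262.H395.KTree (Hea Cyl)
open Vale.Agent.P262.H395.CW (pl nk OMp OMc Lab SI int_fib_le inv_ind)
open Vale.Agent.P262.H44 (InvS)
open Vale.Agent.P262.H59 (OnLine Hp measurableSet_star)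
open Vale.Agent.P262.H752
open Vale.Agent.P262.H654 (fr InvR Bd)
open Vale.Agent.P262.H847 (UI)
open Vale.Agent.P262.H713 (FT ch)

variable {E : Type*} [NormedAddCommGroup E] [InnerProductSpace ℝ E] [FiniteDimensional ℝ E]
  [MeasurableSpace E] [BorelSpace E] {S : Sys E} {D : List ℕ → Set E} {m : ℕ} {Lam : ℝ}
  {a p : List ℕ}

/-! ### the weight of a chain -/

lemma measurableSet_Chn (hD : S.StopOK D m Lam) (a p : List ℕ) :
    MeasurableSet (S.Chn D m a p) := by
  have e : S.Chn D m a p = ⋂ r : List ℕ, ⋂ (_ : a <:+ r), ⋂ (_ : r ≠ a), ⋂ (_ : r <:+ p),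
      ((D r)ᶜ ∩ (S.Z r m)ᶜ) := by
    ext y
    simp only [Chn, mem_setOf_eq, mem_iInter, mem_inter_iff, mem_compl_iff]
  rw [e]
  exact MeasurableSet.iInter fun r => MeasurableSet.iInter fun _ => MeasurableSet.iInter fun _ =>
    MeasurableSet.iInter fun _ => (hD.lab.mD r).compl.inter (S.measurableSet_Z r m).compl

lemma W_mono_suffix {r p : List ℕ} (h : r <:+ p) (m : ℕ) : S.W r m ≤ S.W p m := S.K.W_mono h _

lemma invS_Chn (hD : S.StopOK D m Lam) (a p : List ℕ) : InvS (S.W p m) (S.Chn D m a p) := by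
  intro y w hw
  have key : ∀ r, r <:+ p → (y + w ∈ D r ↔ y ∈ D r) ∧ (y + w ∈ S.Z r m ↔ y ∈ S.Z r m) := by
    intro r hr
    have hw' : w ∈ (S.W r m)ᗮ := Submodule.orthogonal_le (W_mono_suffix hr m) hw
    exact ⟨hD.lab.cD r y w hw', S.Z_inv r m y w hw'⟩
  unfold Chn
  rw [mem_setOf_eq, mem_setOf_eq]
  refine forall_congr' fun r => imp_congr_right fun _ => imp_congr_right fun _ =>
    forall_congr' fun hr => ?_
  rw [(key r hr).1, (key r hr).2]

lemma measurable_omC (hD : S.StopOK D m Lam) (a p : List ℕ) : Measurable (S.omC D m a p) :=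
  (S.As_meas S.th p m).mul (measurable_one.indicator (measurableSet_Chn hD a p))

lemma inv_omC (hD : S.StopOK D m Lam) (a p : List ℕ) : Inv (S.W p m) (S.omC D m a p) :=
  (S.As_inv S.th p m).mul (inv_ind (invS_Chn hD a p))

lemma omC_le_one (hap : a ≠ p) (h : a <:+ p) (y : E) : S.omC D m a p y ≤ 1 := by
  unfold omC
  by_cases hy : y ∈ S.Chn D m a p
  · rw [indicator_of_mem hy, Pi.one_apply, mul_one]
    have hZ := (hy p h (Ne.symm hap) (List.suffix_refl p)).2
    have h1 := S.A_le_of_not_Z hZ
    rw [← S.A_rpow S.hth.le]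
    refine ENNReal.rpow_le_one ?_ S.hth.le
    refine h1.trans ?_
    rw [ENNReal.ofReal_le_one]
    linarith [b0_c (S := S)]
  · rw [indicator_of_notMem hy, mul_zero]
    exact bot_le

/-- **one chain, at one label** -/
theorem star_chain_fib (hC : S.StarC) (hLam : 1 ≤ Lam) (hU : S.ChainU Lam)
    (hD : S.StarOK D m Lam) (h : S.mv.IsStar m) (hm : m < S.mT) {i c' : ℕ}
    (hp : p = List.replicate i 0 ++ c' :: a) (hl : ¬ S.Leaf p m)
    (hn : p.length + 1 ≤ Module.finrank ℝ E) {x0 : E} (hZ : x0 ∉ S.Z a m) (hx0 : x0 ∈ D a)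
    (hc : S.kl a m x0 = c') :
    fib (S.W a m) (fun y => S.omC D m a p y * (S.gst p m y +
        3 * ENNReal.ofReal (S.fld p (m + 1) y))) x0 ≤
      3 * fib (S.W a m) (fun y => S.omC D m a p y * ENNReal.ofReal (S.fld p m y)) x0 := by
  have hL := S.labOK hm.le
  have hL' := S.labOK (m := m + 1) hm
  obtain ⟨n, hn⟩ : ∃ n, n + 1 + p.length = Module.finrank ℝ E :=
    ⟨Module.finrank ℝ E - 1 - p.length, by omega⟩
  have hsuf : a <:+ p := ⟨List.replicate i 0 ++ [c'], by rw [hp]; simp⟩
  have hap : a ≠ p := by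
    intro e
    have := congrArg List.length hp
    rw [← e] at this
    simp at this
    omega
  have hwl := S.wl_X h hm
  have hd := S.norm_wX hm p
  have hne := S.wX_ne hm p
  have hnod := nod_s hD h hm
  have et : ch (S.pa m) (S.cf m) (fun p => S.Z p m) (fun p => S.kl p m) n p 0 = S.tC p m 0 :=
    S.tCn_eq hm.le (by omega) (by omega) 0
  have hval : (S.kK D m n p 0).Valid (S.W p m) :=
    (H713.valid_kt (S.pa_ok m) hD.lab (n + 1) p (S.W p m) le_rfl).2.2.2.2.2.2.2.2 0
  have hkey := hU m hm h D hD.toStopOK i c' a p hp n hn hl x0 hZ hx0 hc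
  have key := star_fr_weighted (K := S.X p m) (K' := S.X p (m + 1)) (v := S.wX m p) (R := S.R)
    (p := 1 / 8) (Lam := Lam) (c0 := S.cc) (W := S.W p m) (W0 := S.W a m) (t := S.tC p m 0)
    (s := S.kK D m n p 0) hne
    (by rw [hd]; exact hC.δ) (S.isClosed_X p m) (S.convex_X p m) (S.X_subset_ball p m) (by norm_num)
    (by norm_num) hLam (S.X_star h hm p) S.cc_le' (by rw [← et]; exact match_ch n p 0)
    hL.good_tC hval (kends_kc (S.pa_ok m) hwl n p 0 (by omega))
    (krim_kc hwl.toWd (S.bo_X m) hD.rim n p 0) (W_mono_suffix hsuf m)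
    (inv_omC hD.toStopOK a p) (measurable_omC hD.toStopOK a p) x0
    (fun y _ _ => by
      rw [← et]
      exact rcnd_kc hwl.toWd (S.bo_X m) (S.bo_X' h) hnod n p hn 0 y)
    (by
      refine ne_top_of_le_ne_top ENNReal.one_ne_top ?_
      calc _ ≤ fib (S.W a m) (fun _ => (1 : ℝ≥0∞)) x0 := fib_mono (fun y => ?_) x0
        _ = 1 := H395.fib_const _ 1 x0
      refine mul_le_one' (mul_le_one' (omC_le_one hap hsuf y) (indicator_le_one' _ y))
        (indicator_le_one' _ y)) hkey
  have hk0 : ∀ y, S.omC D m a p y ≠ 0 → S.kl p m y = 0 := by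
    intro y hy
    have hmem : y ∈ S.Chn D m a p := by
      by_contra hcon
      apply hy
      unfold omC
      rw [indicator_of_notMem hcon, mul_zero]
    have h1 := hmem p hsuf (Ne.symm hap) (List.suffix_refl p)
    exact hD.bad p y h1.2 h1.1
  have e1 : (fun y => S.omC D m a p y * (S.gst p m y +
      3 * ENNReal.ofReal (S.fld p (m + 1) y))) = fun y => S.omC D m a p y *
      (ENNReal.ofReal (FT.wt (S.tC p m 0) (fun _ => ci (S.X p m)) y *
        chR (S.X p m) (S.X p (m + 1)) y) + ENNReal.ofReal |FT.fl (S.tC p m 0)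
        (fun _ => ci (S.X p m)) y - FT.fl (S.tC p m 0) (fun _ => ci (S.X p (m + 1))) y| +
        3 * ENNReal.ofReal (FT.fl (S.tC p m 0) (fun _ => ci (S.X p (m + 1))) y)) := by
    funext y
    by_cases hy : S.omC D m a p y = 0
    · rw [hy, zero_mul, zero_mul]
    · have hk := hk0 y hy
      unfold gst wtf
      rw [S.fld_succ_star h hm, hk]
      unfold fld
      rw [hk]
      rfl
  have e2 : (fun y => S.omC D m a p y * ENNReal.ofReal (S.fld p m y)) = fun y =>
      S.omC D m a p y * ENNReal.ofReal (FT.fl (S.tC p m 0) (fun _ => ci (S.X p m)) y) := by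
    funext y
    by_cases hy : S.omC D m a p y = 0
    · rw [hy, zero_mul, zero_mul]
    · have hk := hk0 y hy
      unfold fld
      rw [hk]
      rfl
  rw [e1, e2]
  exact key

/-- the bad labels of `p` whose last good ancestor is `a` -/
def BR (S : Sys E) (D : List ℕ → Set E) (m : ℕ) (a p : List ℕ) : Set E :=
  {x | x ∈ S.Rg p 0 m ∧ x ∈ D a ∧ ∀ r, a <:+ r → r ≠ a → r <:+ p → x ∉ D r}

lemma not_Z_of_Rg {c : ℕ} {x : E} (hx : x ∈ S.Rg p c m) {r : List ℕ} (hr : r <:+ p) :
    x ∉ S.Z r m := (hx.1.2 r hr).1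

lemma BR_eq (hD : S.StopOK D m Lam) {i c' : ℕ} (hp : p = List.replicate i 0 ++ c' :: a) :
    S.BR D m a p = (OMc (fun r => S.kl r m) (fun r => S.om r m) a c' ∩ D a) ∩ S.Chn D m a p := by
  have hsuf : a <:+ p := ⟨List.replicate i 0 ++ [c'], by rw [hp]; simp⟩
  have hsuf' : c' :: a <:+ p := ⟨List.replicate i 0, by rw [hp]⟩
  -- suffixes of `p`
  have hcmp : ∀ r, r <:+ p → r <:+ a ∨ (a <:+ r ∧ r ≠ a) := by
    intro r hr
    rcases List.suffix_or_suffix_of_suffix hr hsuf with h | h
    · exact Or.inl h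
    · by_cases hra : r = a
      · exact Or.inl (hra ▸ List.suffix_refl _)
      · exact Or.inr ⟨h, hra⟩
  ext x
  constructor
  · rintro ⟨h1, h2, h3⟩
    refine ⟨⟨⟨⟨fun d r hr => h1.1.1 d r (hr.trans hsuf), fun r hr => h1.1.2 r (hr.trans hsuf)⟩,
      h1.1.1 c' a hsuf'⟩, h2⟩, fun r ha hne hr => ⟨h3 r ha hne hr, not_Z_of_Rg h1 hr⟩⟩
  · rintro ⟨⟨⟨⟨h1, h2⟩, h3⟩, h4⟩, h5⟩
    have h6 : ∀ r, a <:+ r → r ≠ a → r <:+ p → S.kl r m x = 0 := fun r ha hne hr =>
      hD.bad r x (h5 r ha hne hr).2 (h5 r ha hne hr).1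
    have hpa : p ≠ a := by
      intro e
      have := congrArg List.length hp
      rw [e] at this
      simp at this
      omega
    refine ⟨⟨⟨fun d r hr => ?_, fun r hr => ?_⟩, h6 p hsuf hpa (List.suffix_refl p)⟩, h4,
      fun r ha hne hr => (h5 r ha hne hr).1⟩
    · -- classes
      have hrp := (List.suffix_cons d r).trans hr
      rcases hcmp (d :: r) hr with hh | ⟨hh, hne⟩
      · exact h1 d r hh
      · rcases List.suffix_cons_iff.mp hh with h' | h'
        · exact absurd h'.symm hne
        · by_cases hra : r = a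
          · subst hra
            have h7 : (d :: r) = (c' :: r) := by
              rcases List.suffix_or_suffix_of_suffix hr hsuf' with h8 | h8
              · exact h8.eq_of_length rfl
              · exact (h8.eq_of_length rfl).symm
            rw [List.cons.injEq] at h7
            rw [h7.1]
            exact h3
          · show S.kl r m x = d
            rw [h6 r h' hra hrp]
            -- `d` is an entry of `replicate i 0`
            obtain ⟨u, hu⟩ := h'
            have hune : u ≠ [] := by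
              intro e; rw [e] at hu; exact hra (by simpa using hu.symm)
            obtain ⟨v, hv⟩ := hr
            have e2 : (v ++ (d :: u)) ++ a = (List.replicate i 0 ++ [c']) ++ a := by
              have : v ++ (d :: (u ++ a)) = p := by rw [hu, hv]
              rw [hp] at this
              simpa using this
            have e3 : v ++ (d :: u) = List.replicate i 0 ++ [c'] := List.append_cancel_right e2
            rcases List.eq_nil_or_concat u with h8 | ⟨u', z, h8⟩
            · exact absurd h8 hune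
            · rw [h8] at e3
              have e4 : (v ++ (d :: u')) ++ [z] = List.replicate i 0 ++ [c'] := by
                rw [← e3]; simp
              have e5 := (List.append_inj' e4 rfl).1
              have hmem : d ∈ List.replicate i 0 := by rw [← e5]; simp
              exact (List.eq_of_mem_replicate hmem).symm
    · rcases hcmp r hr with hh | ⟨hh, hne⟩
      · exact h2 r hh
      · exact om_of_zero_c (h6 r hh hne hr) (h5 r hh hne hr).2

lemma measurableSet_OMc (hm : S.mv.tm m < S.T) (a : List ℕ) (c : ℕ) :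
    MeasurableSet (OMc (fun r => S.kl r m) (fun r => S.om r m) a c) :=
  (lab_c (S := S) (p := a) hm).measurable_c c

/-- **one chain, integrated** -/
theorem star_chain (hC : S.StarC) (hLam : 1 ≤ Lam) (hU : S.ChainU Lam)
    (hD : S.StarOK D m Lam) (h : S.mv.IsStar m) (hm : m < S.mT) {i c' : ℕ}
    (hp : p = List.replicate i 0 ++ c' :: a) (hl : ¬ S.Leaf p m)
    (hn : p.length + 1 ≤ Module.finrank ℝ E) :
    ∫⁻ x, (S.BR D m a p).indicator 1 x * (S.As S.th p m x * fib (S.W p m) (S.gst p m) x)
        ∂stdGaussian E +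
      3 * ∫⁻ x, (S.BR D m a p).indicator 1 x * (S.As S.th p m x * S.F p (m + 1) x)
        ∂stdGaussian E ≤
      3 * ∫⁻ x, (S.BR D m a p).indicator 1 x * (S.As S.th p m x * S.F p m x)
        ∂stdGaussian E := by
  have ht := S.tm_lt_X hm
  have hL := S.labOK hm.le
  have hL' := S.labOK (m := m + 1) hm
  have hsuf : a <:+ p := ⟨List.replicate i 0 ++ [c'], by rw [hp]; simp⟩
  set O := OMc (fun r => S.kl r m) (fun r => S.om r m) a c' ∩ D a with hO
  have hOm : MeasurableSet O := (measurableSet_OMc ht a c').inter (hD.lab.mD a)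
  have hSI : SI (fun r => S.W r m) p := SI_c ht hl
  have hOi : InvS (S.W a m) O := by
    intro y w hw
    have h1 := (lab_c (S := S) (p := a) ht).inv_c (hSI.suffix hsuf) c' y w hw
    have h2 := hD.lab.cD a y w hw
    rw [hO, mem_inter_iff, mem_inter_iff, h1, h2]
  set G : E → ℝ≥0∞ := O.indicator 1 with hG
  have hGi : Inv (S.W a m) G := inv_ind hOi
  have hGm : Measurable G := measurable_one.indicator hOm
  have mg := hL.gst_meas hL' p
  have mf := (hL.fld_UI (p := p)).meas.ennreal_ofReal
  have mf' := (hL'.fld_UI (p := p)).meas.ennreal_ofReal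
  have mo := measurable_omC hD.toStopOK a p
  have key := int_fib_le (W := S.W a m) (G := G) (f := fun y => S.omC D m a p y * (S.gst p m y +
      3 * ENNReal.ofReal (S.fld p (m + 1) y))) (g := fun y => S.omC D m a p y *
      ENNReal.ofReal (S.fld p m y)) hGi hGm (mo.mul (mg.add (mf'.const_mul 3))) (mo.mul mf)
      (c := 3) (fun x hx => by
        have hxO : x ∈ O := by
          by_contra hcon
          exact hx (indicator_of_notMem hcon _)
        exact star_chain_fib hC hLam hU hD h hm hp hl hn (hxO.1.1.2 a (List.suffix_refl a)).1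
          hxO.2 hxO.1.2)
  -- label functions of `p`
  have hGo : Inv (S.W p m) fun x => G x * S.omC D m a p x :=
    (hGi.mono (W_mono_suffix hsuf m)).mul (inv_omC hD.toStopOK a p)
  have hGom : Measurable fun x => G x * S.omC D m a p x := hGm.mul mo
  have eB : ∀ x, (S.BR D m a p).indicator (1 : E → ℝ≥0∞) x * S.As S.th p m x =
      G x * S.omC D m a p x := by
    intro x
    have e : (S.BR D m a p).indicator (1 : E → ℝ≥0∞) x =
        O.indicator 1 x * (S.Chn D m a p).indicator 1 x := by
      rw [BR_eq hD.toStopOK hp, ← hO, Set.inter_indicator_one, Pi.mul_apply]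
    rw [e, hG]
    unfold omC
    ring
  have eI : ∀ {u : E → ℝ≥0∞}, Measurable u →
      ∫⁻ x, (S.BR D m a p).indicator 1 x * (S.As S.th p m x * fib (S.W p m) u x) ∂stdGaussian E =
      ∫⁻ x, G x * (S.omC D m a p x * u x) ∂stdGaussian E := by
    intro u hu
    rw [← lintegral_fib (W := S.W p m) (f := fun x => G x * (S.omC D m a p x * u x))
      (hGm.mul (mo.mul hu))]
    refine lintegral_congr fun x => ?_
    rw [← mul_assoc, eB]
    have e : (fun x => G x * (S.omC D m a p x * u x)) = fun x => (G x * S.omC D m a p x) * u x := by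
      funext y; ring
    rw [e, fib_mul hGo hu]
  have eF : ∀ x, S.F p m x = fib (S.W p m) (fun y => ENNReal.ofReal (S.fld p m y)) x := fun x => by
    rw [hL.F_eq, fib_ofReal hL.fld_UI]
    rfl
  have eF' : ∀ x, S.F p (m + 1) x = fib (S.W p m) (fun y => ENNReal.ofReal (S.fld p (m + 1) y)) x :=
    fun x => by
      rw [hL'.F_eq, fib_ofReal hL'.fld_UI]
      unfold Fr
      rw [S.W_succ_active (Or.inl h)]
  simp_rw [eF, eF']
  rw [eI mg, eI mf', eI mf]
  refine le_trans (le_of_eq ?_) key
  have m3 : Measurable fun x => G x * (S.omC D m a p x * ENNReal.ofReal (S.fld p (m + 1) x)) :=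
    hGm.mul (mo.mul mf')
  have m4 : Measurable fun x => G x * (S.omC D m a p x * S.gst p m x) := hGm.mul (mo.mul mg)
  rw [← lintegral_const_mul _ m3, ← lintegral_add_left m4]
  refine lintegral_congr fun x => ?_
  ring

end Vale.Agent.P262.M2.Sys
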